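import Crest.Agent.X212.Cyl12.Val
import Crest.Agent.X212.Shi84.Pul
import Crest.Agent.X212.Eqv71.Hil
import Crest.Agent.X212.Th31.Cux

-- ▼ part X212/Cyl12/Pul
section

/-!
# Row 212, CYC-LIM (helper12): PUL, values of cyclic seeds pull back
-/

set_option autoImplicit false
set_option linter.unusedSectionVars false
noncomputable section
open scoped Manifold ContDiff Topology InnerProductSpace
open MeasureTheory Set Function Filter

namespace Crest.Agent.X212.Cyl12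
open An Dgr80 Cyc79 Eqv71 Shi84
open Wz78 (nab lap SA pg_mem pg_of_mem)
open Cmp73 (VW Rs)
open ContinuousLinearMap (adjoint)

variable {E : Type} [NormedAddCommGroup E] [NormedSpace ℝ E] [FiniteDimensional ℝ E]
  [MeasurableSpace E] [BorelSpace E]
  {HM : Type} [TopologicalSpace HM] {I : ModelWithCorners ℝ E HM} [I.Boundaryless]
  {M : Type} [TopologicalSpace M] [ChartedSpace HM M] [IsManifold I ∞ M]
  [MeasurableSpace M] [BorelSpace M] [T2Space M] [SecondCountableTopology M]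
  {ι : Type} [Fintype ι] {lam : Type} [Fintype lam]
  {E' : Type} [NormedAddCommGroup E'] [NormedSpace ℝ E'] [FiniteDimensional ℝ E']
  [MeasurableSpace E'] [BorelSpace E']
  {HM' : Type} [TopologicalSpace HM'] {I' : ModelWithCorners ℝ E' HM'} [I'.Boundaryless]
  {M' : Type} [TopologicalSpace M'] [ChartedSpace HM' M'] [IsManifold I' ∞ M']
  [MeasurableSpace M'] [BorelSpace M'] [T2Space M'] [SecondCountableTopology M']
  {ι' : Type} [Fintype ι'] {lam' : Type} [Fintype lam']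
  {B : Base M ι lam} {G : Geo I M ι lam} {B' : Base M' ι' lam'} {G' : Geo I' M' ι' lam'}
  {O' : Set M'} {φ : M → M'} {ψ : M' → M} {U : M → ι' → ι → ℝ} {v : M → CL (Eu lam) (Eu lam')}
  {r : ℕ} {c : Cfg M ι lam r} {y : Cfg M' ι' lam' r} {u : M → CL c.m.V y.m.V}
  {K : Type} [NormedAddCommGroup K] [InnerProductSpace ℝ K] [CompleteSpace K]

/-- the Hilbert fibre -/
abbrev HV {M ι lam : Type} [Fintype ι] [Fintype lam] (c : Cfg M ι lam r) (K : Type) : Type :=
  Fm (Fin c.m.N × Fin c.m.N) K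

variable (φ u) in
/-- pull-back of fields -/
abbrev pH (s : M' → HV y K) : M → HV c K := fun x =>
  am2 (ContinuousLinearMap.id ℝ K) (cj (trn (u x))) (s (φ x))

variable (φ u) in
/-- pull-back of the relation -/
def pJ (J : K → (M' → y.m.A) → Prop) (h : K) (σ : M → c.m.A) : Prop := ∃ σ', J h σ' ∧ σ = pA φ u σ'

variable (φ U u) in
/-- pull-back of one-forms -/
abbrev p1 (s : M' → Fm ι' y.m.A) : M → Fm ι c.m.A := fun x =>
  ridx (fun a b => U x b a) (cj (trn (u x))) (s (φ x))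

variable (y) in
/-- fields with values in `g ⊗ K` -/
abbrev Fx (s : M' → HV y K) : Prop := ∀ z, amp K (y.m.pg z) (s z) = s z

theorem ct_id {κ κ' : Type} [Fintype κ] [DecidableEq κ] [Fintype κ'] [DecidableEq κ']
    (S : CL (Eu κ) (Eu κ')) (h : K) (w : Fm κ K) :
    ct h (am2 (ContinuousLinearMap.id ℝ K) S w) = S (ct h w) := by
  rw [ct_am2, ContinuousLinearMap.adjoint_id]; rfl

theorem ct_mem {z : M'} {a : HV y K} (h : amp K (y.m.pg z) a = a) (g : K) : ct g a ∈ y.m.gS z := by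
  rw [← h, ct_amp]; exact pg_mem z _

theorem Fx.ad {s : M' → HV y K} (h : Fx y s) (l : M' → y.m.A) :
    Fx y fun z => amp K (adR _ (y.m.pg z (l z))) (s z) := fun z => by
  beta_reduce
  rw [← h z, amp_amp, amp_amp, amp_amp, mul_assoc, pg_adR]

theorem fx_vH {F : Fr I' M' ι'} {t : La M'} {s a : M' → HV y K} (q : Fx y s)
    (h : vH K F (y.m.adW y.W) y.m.pg t s a) : Fx y a := by
  cases t with
  | mul f => obtain rfl := h; exact fun z => (map_smul _ _ _).trans (congrArg _ (q z))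
  | G => exact h.2

theorem BF.fx {F : Fr I' M' ι'} {J : K → (M' → y.m.A) → Prop} {f f' φ : M' → ℝ} {R : ℝ}
    {b : M' → HV y K} (h : BF F (y.m.adW y.W) y.m.pg J f f' φ R b) : Fx y b := fun z => by
  obtain ⟨w, -, -, a, e, -⟩ := h.loc
  rw [e, map_smul, a]

section
variable (k : PB B G B' G' O' φ ψ U v c y u) {J : K → (M' → y.m.A) → Prop} {s a l e : M' → HV y K}
  {R : ℝ}
include k

theorem it_pH : IT G' B I O' ψ (fun y a b => U (ψ y) b a) (aA K (y.m.adW y.W)) (aA K (c.m.adW c.W))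
    fun z => am2 (ContinuousLinearMap.id ℝ K) (cj (trn (u (ψ z)))) :=
  (k.lm.symm k.kg.inv).it_am2 ContinuousLinearMap.norm_id_le

theorem pg_cj (x : M) (ξ : y.m.A) :
    c.m.pg x (cj (trn (u x)) ξ) = cj (trn (u x)) (y.m.pg (φ x) ξ) :=
  (k.me x).pg (k.be x) k.lm.hB' k.lm.hB k.lm.ok' k.lm.ok ξ

theorem cj_cj' {x : M} {ξ : y.m.A} (h : ξ ∈ y.m.gS (φ x)) : cj (u x) (cj (trn (u x)) ξ) = ξ := by
  simpa only [trn_trn] using (k.me x).trn_cj h

theorem ad_cj {x : M} {η : y.m.A} (h : η ∈ y.m.gS (φ x)) (ξ : y.m.A) :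
    cj (trn (u x)) (adR _ ξ η) = adR _ (cj (trn (u x)) ξ) (cj (trn (u x)) η) := by
  rw [adR_apply, adR_apply, ← k.lm.rr_ad (mem_univ x)
    (ME.cj_p ((k.me x).cj_mem (k.be x) k.lm.ok' k.lm.ok h)), cj_cj' k h]

theorem fx_pH (q : Fx y s) : Fx c (pH φ u s) := fun x => ext_ct fun g => by
  rw [ct_amp, ct_id, pg_cj k, pg_of_mem (ct_mem (q _) g)]

theorem ad_pH (q : Fx y s) (l : M' → y.m.A) :
    pH φ u (fun z => amp K (adR _ (y.m.pg z (l z))) (s z)) =
      fun x => amp K (adR _ (c.m.pg x (pA φ u l x))) (pH φ u s x) :=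
  funext fun x => ext_ct fun g => by
    rw [ct_id, ct_amp, ct_amp, ct_id, pg_cj k, ad_cj k (ct_mem (q _) g)]

theorem tp_pH {x : M} {a : HV y K} (q : amp K (y.m.pg (φ x)) a = a) (b : HV y K) :
    tp (hr K (adR _)) (am2 (ContinuousLinearMap.id ℝ K) (cj (trn (u x))) a)
      (am2 (ContinuousLinearMap.id ℝ K) (cj (trn (u x))) b) =
      cj (trn (u x)) (tp (hr K (adR _)) a b) := ext_inner_right ℝ fun ξ => by
  rw [inner_tp, inner_cj, inner_tp, ← ContinuousLinearMap.adjoint_inner_right, adj_am2]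
  refine congrArg _ (ext_ct fun g => ?_)
  have := (k.lm.symm k.kg.inv).rr_ad (k.kg.inv.maps (mem_univ x))
    (ME.cj_p (ct_mem q g)) ξ
  rw [k.kg.inv.linv x trivial] at this
  rw [ContinuousLinearMap.adjoint_id, ct_id, hr_apply, hr_apply, ct_amp, ct_amp, ct_id,
    show trn (cj (trn (u x))) = _ from adj_cj _, adR_apply, adR_apply, this]

theorem sm_pH (h : Sm I' s) : Sm I (pH φ u s) :=
  pul_sm (T := fun x => am2 (ContinuousLinearMap.id ℝ K) (cj (trn (u x)))) k.kg (it_pH k) h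

theorem nab_pH (h : Sm I' s) (a : ι) (x : M) : nab I G.F.e (aA K (c.m.adW c.W)) a (pH φ u s) x =
    ∑ b, U x b a • am2 (ContinuousLinearMap.id ℝ K) (cj (trn (u x)))
      (nab I' G'.F.e (aA K (y.m.adW y.W)) b s (φ x)) := by
  have hx := k.kg.inv.maps (mem_univ x)
  have t := it_pH (K := K) k
  simpa only [k.kg.inv.linv x trivial] using k.kg.symm.toLG.nab hx ⟨fun a z => t.mc'.sm a z, t.pj⟩
    (t.sT _ hx) (t.it _ hx) (h _) (sm_pH k h _) (Eventually.mono (k.kg.inv.opn'.mem_nhds hx)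
      fun z hz => by rw [pH, k.kg.inv.rinv z hz]) a

theorem cur_pH (hs : Sm I' s) (qs : Fx y s) (hl : Sm I' l) (ql : Fx y l) (x : M) :
    cur G.F (aA K (c.m.adW c.W)) (hr K (adR _)) (pH φ u s) (pH φ u l) x =
      p1 φ U u (cur G'.F (aA K (y.m.adW y.W)) (hr K (adR _)) s l) x := PiLp.ext fun b => by
  have tl : ∀ (a : HV c K) (f : ι' → HV c K), tp (hr K (adR _)) a (∑ i, U x i b • f i) =
      ∑ i, U x i b • tp (hr K (adR (Fin c.m.N))) a (f i) := fun a f => by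
    simp only [tp, map_sum, map_smul]
  simp only [cur, ridx_apply, nab_pH k hs, nab_pH k hl, tl, tp_pH k (qs _), tp_pH k (ql _), map_add,
    smul_add, Finset.sum_add_distrib]

theorem vH_pH {t : La M} {t' : La M'} (ht : LaR univ φ t t') (q : Fx y s)
    (h : vH K G'.F (y.m.adW y.W) y.m.pg t' s a) :
    vH K G.F (c.m.adW c.W) c.m.pg t (pH φ u s) (pH φ u a) := by
  cases ht with
  | mul hf =>
    obtain rfl := h
    exact funext fun x => by simp only [map_smul, ← hf (mem_univ x)]; rfl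
  | G =>
    refine ⟨pul_rs (T := fun x => am2 (ContinuousLinearMap.id ℝ K) (cj (trn (u x)))) k.kg (it_pH k)
      k.dn (fun x => le_trans (le_of_eq (congrArg _ (ext_ct fun g => ?_)))
        ((k.lm.it_am2 (R := ContinuousLinearMap.id ℝ K) ContinuousLinearMap.norm_id_le).nT x
          trivial _)) h.1, fx_pH k h.2⟩
    rw [ct_id, ct_id, cj_cj' k (ct_mem (q _) g)]

theorem vw_pH {w : List (La M)} {w' : List (La M')} (hw : List.Forall₂ (LaR univ φ) w w') (q : Fx y s)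
    (h : VW (vH K G'.F (y.m.adW y.W) y.m.pg) s w' a) :
    Fx y a ∧ VW (vH K G.F (c.m.adW c.W) c.m.pg) (pH φ u s) w (pH φ u a) :=
  vw_pul (st' := vH K G'.F (y.m.adW y.W) y.m.pg) (f := pH φ u) (p := fun _ => True) (q := Fx y) q
    (fun _ _ _ _ ht _ q h => ⟨fx_vH q h, vH_pH k ht q h⟩) hw (fun _ _ => trivial) h

theorem st_pH (h : St J R e a) : St (pJ φ u J) R (pH φ u e) (pH φ u a) := fun z w hw => by
  obtain ⟨g, h1, h2⟩ := h (φ z) (cj (u z) w) ((k.lm.it_ad.nT z trivial w).trans hw)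
  have q : dot (pH φ u a z) w = dot (a (φ z)) (cj (u z) w) := ext_inner_left ℝ fun g => by
    rw [inner_dot, inner_dot, ct_id, inner_cj, trn_trn]
  rw [q]
  exact ⟨g, h1, _, h2, funext fun x => ct_id (cj (trn (u x))) g (e (φ x))⟩

theorem vG_pH (qs : Fx y s) {w : List (La M)} {w' : List (La M')}
    (hw : List.Forall₂ (LaR univ φ) w w') : ∀ {l : M' → HV y K} {η : M' → Fm ι' y.m.A}, Fx y l →
      vG G'.F (y.m.adW y.W) y.m.pg J (adR _) R e s w' l η →
      vG G.F (c.m.adW c.W) c.m.pg (pJ φ u J) (adR _) R (pH φ u e) (pH φ u s) w (pH φ u l)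
        (p1 φ U u η) := by
  induction hw with
  | nil => exact fun _ h => by obtain rfl := h; exact funext fun x => map_zero _
  | cons ht hw ih =>
    intro l η q h
    cases ht with
    | @mul f f' hf =>
      have := ih (fx_vH (F := G'.F) (t := .mul f') q rfl) h
      rwa [show pH φ u (fun z => f' z • l z) = fun x => f x • pH φ u l x from
        vH_pH k (.mul hf) q rfl] at this
    | G =>
      obtain ⟨u₀, u₁, l', η₀, a1, a2, a3, a4, a5, rfl⟩ := h
      have b := vw_pH k hw qs a1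
      exact ⟨_, _, _, _, b.2, vH_pH k .G b.1 a2, vH_pH k .G q a3, st_pH k a4, ih a3.2 a5,
        funext fun x => by rw [cur_pH k a2.1.sm a2.2 a3.1.sm a3.2, p1, map_sub]⟩

theorem vgh_pH {f f' : M → ℝ} {g g' : M' → ℝ} (hf : FR univ φ f g) (hf' : FR univ φ f' g')
    {w w' : List (La M)} {z z' : List (La M')} (hw : List.Forall₂ (LaR univ φ) w z)
    (hw' : List.Forall₂ (LaR univ φ) w' z') {b b' : M' → HV y K} (q : Fx y b) (q' : Fx y b')
    (qa : Fx y a) {l : M' → y.m.A} {η : M' → Fm ι' y.m.A}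
    (h : vgh G'.F (y.m.adW y.W) y.m.pg J (adR _) R g g' b b' z z'
      (fun x => adR _ (y.m.pg x (l x))) a η) :
    vgh G.F (c.m.adW c.W) c.m.pg (pJ φ u J) (adR _) R f f' (pH φ u b) (pH φ u b') w w'
      (fun x => adR _ (c.m.pg x (pA φ u l x))) (pH φ u a) (p1 φ U u η) := by
  obtain ⟨η₁, η₂, s, m, a1, a2, a3, a4, rfl⟩ := h
  have x1 := List.rel_append hw (laR_xw hf hf')
  have b2 := vw_pH k hw' q a2
  have b3 := vw_pH k (List.rel_reverse x1) (b2.1.ad l) a3
  exact ⟨_, _, _, _, ad_pH k qa l ▸ vG_pH k q' x1 (qa.ad l) a1, b2.2, ad_pH k b2.1 l ▸ b3.2,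
    vG_pH k q (laR_xw hf' hf) b3.1 a4, funext fun x => map_add _ _ _⟩

theorem bf_pH {f f' : M → ℝ} {g g' χ : M' → ℝ} (hf : FR univ φ f g) (hf' : FR univ φ f' g')
    {b : M' → HV y K} (h : BF G'.F (y.m.adW y.W) y.m.pg J g g' χ R b) :
    BF G.F (c.m.adW c.W) c.m.pg (pJ φ u J) f f' (fun x => χ (φ x)) R (pH φ u b) := by
  obtain rfl : g ∘ φ = f := (eqOn_univ _ _).1 hf
  obtain rfl : g' ∘ φ = f' := (eqOn_univ _ _).1 hf'
  obtain ⟨w, a1, a2, a3, a4, a5⟩ := h.loc
  refine ⟨⟨pH φ u w, sm_pH k a1, fun x => (pul_le (T := fun x => am2 (ContinuousLinearMap.id ℝ K)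
    (cj (trn (u x)))) k.kg (it_pH k) x _).trans (a2 _), fx_pH k a3,
    fun x => by rw [pH, a4, map_smul]; rfl, fun x hx => ?_⟩, fun x => h.sep _, ?_⟩
  · rw [pul_eq (T := fun x => am2 (ContinuousLinearMap.id ℝ K) (cj (trn (u x)))) k.kg (it_pH k) a1
      (fun _ => rfl) x, a5 _ hx, map_zero]
  · rintro g₀ _ ⟨σ, j, rfl⟩
    obtain ⟨s, b1, b2, b3⟩ := h.wk g₀ σ j
    refine ⟨pA φ u s, ?_, fun x => by rw [pg_cj k, b2], fun x => by rw [ct_id, b3, map_smul]; rfl⟩
    have := pul_rs (T := fun x => cj (trn (u x))) (s := fun z => g' z • y.m.pg z (σ z)) k.kg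
      (k.lm.symm k.kg.inv).it_ad k.dn
      (fun x => (k.nA (Submodule.smul_mem _ (g' (φ x)) (pg_mem (φ x) (σ (φ x))))).ge) b1
    simp only [map_smul, ← pg_cj k] at this
    exact this

theorem vj_pH (h : VJ G'.F y.m.pg J) : VJ G.F c.m.pg (pJ φ u J) := fun t t1 t2 t3 => by
  have i := k.kg.inv
  have hK : IsCompact (φ '' tsupport t) := t2.isCompact.image_of_continuousOn
    fun x _ => (k.kg.rot.sφ x trivial).continuousAt.continuousWithinAt
  let w := O'.indicator fun z => cj (u (ψ z)) (t (ψ z))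
  have w0 : ∀ z ∉ φ '' tsupport t, w z = 0 := fun z hz => indicator_apply_eq_zero.2 fun h' => by
    rw [image_eq_zero_of_notMem_tsupport fun e => hz ⟨_, e, i.rinv z h'⟩, map_zero]
  have w1 : ∀ x, w (φ x) = cj (u x) (t x) := fun x => by
    simp only [w, indicator_of_mem (i.maps (mem_univ x)), i.linv x trivial]
  have m : ∀ x, t x ∈ c.m.gS x := fun x => t3 x ▸ pg_mem x _
  obtain ⟨g, g1, g2⟩ := h w (fun z => by
    by_cases hz : z ∈ O'
    · exact (i.sa hz (f := fun x => cj (u x) (t x)) ((k.lm.it_ad.sT _ trivial).app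
        (t1 _))).congr_of_eventuallyEq (ind_ev i.opn' hz _)
    · refine (contMDiffAt_const (c := 0)).congr_of_eventuallyEq ?_
      filter_upwards [hK.isClosed.isOpen_compl.mem_nhds
        (by rintro ⟨x, -, rfl⟩; exact hz (i.maps trivial))] with z hz using w0 z hz)
    (HasCompactSupport.intro hK w0) fun z => by
      by_cases hz : z ∈ O'
      · obtain ⟨x, -, rfl⟩ := i.surj hz
        rw [w1, pg_of_mem ((k.lm.me x trivial).cj_mem (k.lm.be x trivial) k.lm.ok k.lm.ok' (m x))]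
      · simp only [w, indicator_of_notMem hz, map_zero]
  refine ⟨g, ⟨w, g1, funext fun x => by rw [pA, w1, (k.lm.me x trivial).trn_cj (m x)]⟩, ?_⟩
  rintro g' _ ⟨σ, j, rfl⟩
  rw [g2 g' σ j]
  exact k.kg.integral_off (fun x _ => by rw [w1, inner_cj]) (fun x hx => absurd trivial hx)
    fun z hz => by simp only [w, indicator_of_notMem hz, inner_zero_left]

end

/-- **PUL** -/
theorem pul (k : PB B G B' G' O' φ ψ U v c y u) {d : Cy M} {d' : Cy M'} (hd : CyR univ univ φ d d')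
    {χ : M' → ℝ} {R : ℝ} (a : VC G'.F y d' χ R) : ∃ b : VC G.F c d (fun x => χ (φ x)) R,
      b.s = pA φ u a.s ∧ ∀ l η, Continuous l → (∀ z, l z ∈ y.m.gS z) → a.A l η →
        b.A (pA φ u l) (p1 φ U u η) := by
  have x1 := laR_xw hd.f hd.f'
  have qa := vw_pH k (List.rel_append hd.w x1) a.bf'.fx a.wa
  have qb := vw_pH k (List.rel_append hd.w' x1) a.bf'.fx a.wb
  let b : VC G.F c d (fun x => χ (φ x)) R := ⟨a.K, pJ φ u a.J, _, _, _, _, vj_pH k a.vj,
    bf_pH k hd.f hd.f' a.bf, bf_pH k hd.f' hd.f a.bf', qa.2, qb.2, st_pH k a.sa, st_pH k a.sb⟩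
  refine ⟨b, funext fun x => (congrArg _ (tp_pH k (qa.1 _) _)).trans (pg_cj k x _), ?_⟩
  rintro l _ cl ml ⟨R', η₁, η₂, h1, h2, h3, rfl⟩
  have e1 := vgh_pH k hd.f hd.f' hd.w' hd.w a.bf.fx a.bf'.fx qa.1 h2
  have e2 := vgh_pH k hd.f hd.f' hd.w hd.w' a.bf.fx a.bf'.fx qb.1 h3
  exact ⟨R', _, _, fun L L0 hL => h1 L L0 fun z => k.dn.induction_on z
    (isClosed_le cl.norm continuous_const) fun x => (k.nA (ml _)).ge.trans (hL x), e1, e2,
    funext fun x => map_sub _ _ _⟩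

end Crest.Agent.X212.Cyl12
end
end

-- ▼ part X212/Cyl12/Pf

/-!
# Row 212, CYC-PF (helper12): values of cyclic seeds are controlled sections
-/

set_option autoImplicit false
set_option linter.unusedSectionVars false
noncomputable section
open scoped Manifold ContDiff Topology InnerProductSpace
open MeasureTheory Set Function Filter

namespace Crest.Agent.X212.Cyl12
open An Dgr80 Cyc79 Cmp73
open Wz78 (nab lap SA pg_mem pg_of_mem)
open Th31 (CU cu_cur)

section alg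
variable {κ : Type} [Fintype κ] [DecidableEq κ] {K : Type} [NormedAddCommGroup K]
  [InnerProductSpace ℝ K] [CompleteSpace K]

theorem norm_amp_le : ‖(amp K : CL (En κ) _)‖ ≤ 1 :=
  ContinuousLinearMap.opNorm_le_bound₂ _ zero_le_one fun T v => by
    rw [one_mul]; exact norm_amp T v

theorem norm_hr_ad (ξ : HS κ) (v : Fm (κ × κ) K) : ‖amp K (adR κ ξ) v‖ ≤ 2 * ‖ξ‖ * ‖v‖ :=
  (norm_amp _ _).trans (mul_le_mul_of_nonneg_right (norm_adR ξ) (norm_nonneg _))

theorem norm_hr : ‖hr K (adR κ)‖ ≤ 2 := ContinuousLinearMap.opNorm_le_bound₂ _ zero_le_two norm_hr_ad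

theorem hr_adc (A : En κ) (ξ : HS κ) (v : Fm (κ × κ) K) : hr K (adR κ) (adc A ξ) v =
    amp K (adc A) (hr K (adR κ) ξ v) - hr K (adR κ) ξ (amp K (adc A) v) := by
  rw [hr_apply, hr_apply, amp_amp, amp_amp, ← _root_.sub_apply, ← map_sub, adR_apply, adR_apply,
    Wz78.opL_adc, Wz78.adc_lie]

variable {V U : Type} [NormedAddCommGroup V] [InnerProductSpace ℝ V] [CompleteSpace V]
  [NormedAddCommGroup U] [InnerProductSpace ℝ U] [CompleteSpace U] {ρ : CL U (CL V V)}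

theorem norm_tpL {C : ℝ} (h : ‖ρ‖ ≤ C) : ‖tpL ρ‖ ≤ C :=
  ContinuousLinearMap.opNorm_le_bound _ ((norm_nonneg _).trans h) fun v => by
    change ‖ContinuousLinearMap.adjoint (ρ.flip v)‖ ≤ _
    rw [LinearIsometryEquiv.norm_map]
    exact ρ.flip.le_of_opNorm_le (by rwa [ContinuousLinearMap.opNorm_flip]) v

theorem tp_par {A : CL V V} {B : CL U U} (kA : ∀ v w, ⟪A v, w⟫_ℝ = -⟪v, A w⟫_ℝ)
    (kB : ∀ v w, ⟪B v, w⟫_ℝ = -⟪v, B w⟫_ℝ) (h : ∀ ξ v, ρ (B ξ) v = A (ρ ξ v) - ρ ξ (A v)) (v w : V) :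
    B (tp ρ v w) = tp ρ (A v) w + tp ρ v (A w) := ext_inner_right ℝ fun ξ => by
  rw [kB, inner_add_left, inner_tp, inner_tp, inner_tp, kA, h, inner_sub_right]; ring

end alg

variable {E : Type} [NormedAddCommGroup E] [NormedSpace ℝ E] [FiniteDimensional ℝ E]
  [MeasurableSpace E] [BorelSpace E]
  {HM : Type} [TopologicalSpace HM] {I : ModelWithCorners ℝ E HM} [I.Boundaryless]
  {E₀ : Type} [NormedAddCommGroup E₀] [NormedSpace ℝ E₀] [FiniteDimensional ℝ E₀]
  [MeasurableSpace E₀] [BorelSpace E₀]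
  {H₀ : Type} [TopologicalSpace H₀] {I₀ : ModelWithCorners ℝ E₀ H₀} [I₀.Boundaryless]
  {M : Type} [TopologicalSpace M] [ChartedSpace H₀ M] [IsManifold I₀ ∞ M] [MeasurableSpace M]
  [T2Space M] [BorelSpace M] [SecondCountableTopology M]
  {ι lam : Type} [Fintype ι] [Fintype lam] {α : Type}
  {X : α → Type} [∀ n, TopologicalSpace (X n)] [∀ n, ChartedSpace HM (X n)]
  [∀ n, IsManifold I ∞ (X n)] [∀ n, MeasurableSpace (X n)] [∀ n, T2Space (X n)]
  [∀ n, BorelSpace (X n)] [∀ n, SecondCountableTopology (X n)] {r : ℕ}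

section one
variable {B : Base M ι lam} {G : Geo I₀ M ι lam} {b : Cfg M ι lam r} {K : Type}
  [NormedAddCommGroup K] [InnerProductSpace ℝ K] [CompleteSpace K] {s t : M → HV b K}

theorem fx_of (h : ∀ x g, ct g (s x) ∈ b.m.gS x) : Fx b s := fun x => ext_ct fun g => by
  rw [ct_amp, pg_of_mem (h x g)]

variable (H : b.m.OK I₀ B) (C : b.m.IsConn B G b.W)
include C

theorem sm_WK (a : ι) : Sm I₀ (aA K (b.m.adW b.W) a) := sm_aA (fun a => (Wz78.con_adW C).sm a) a

theorem sk_WK (a : ι) (x : M) (v w : HV b K) :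
    ⟪aA K (b.m.adW b.W) a x v, w⟫_ℝ = -⟪v, aA K (b.m.adW b.W) a x w⟫_ℝ :=
  skew_amp (Wz78.adW_skw C a x) v w

theorem nab_tp (hs : Sm I₀ s) (ht : Sm I₀ t) (a : ι) (x : M) :
    nab I₀ G.F.e (b.m.adW b.W) a (fun x => tp (hr K (adR _)) (s x) (t x)) x =
      tp (hr K (adR _)) (nab I₀ G.F.e (aA K (b.m.adW b.W)) a s x) (t x) +
        tp (hr K (adR _)) (s x) (nab I₀ G.F.e (aA K (b.m.adW b.W)) a t x) := by
  have e := tp_par (sk_WK C a x) (Wz78.adW_skw C a x) (hr_adc (K := K) (b.W a x)) (s x) (t x)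
  change nab I₀ G.F.e _ a (fun x => tpL _ (s x) (t x)) x = tpL _ _ _ + tpL _ _ _
  change _ = tpL _ _ _ + tpL _ _ _ at e
  simp only [nab, Sob92.dv_app (SA.clm (tpL (hr K (adR _))) (hs x)).md (SA.md (ht x)),
    Sob92.dv_clm (tpL (hr K (adR _))) (SA.md (hs x)), map_add, _root_.add_apply]
  rw [← add_add_add_comm]
  exact congrArg (_ + ·) e

include H

theorem Fx.nab (q : Fx b s) (hs : Sm I₀ s) (a : ι) :
    Fx b (nab I₀ G.F.e (aA K (b.m.adW b.W)) a s) := fx_of fun x g => by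
  rw [← ct_nab hs]
  exact Wz78.nab_mem_g H C a (sm_ct hs g x) fun y => ct_mem (q y) g

end one

variable {g : Gs I I₀ M ι lam X} {c : ∀ n, Cfg (X n) ι lam r} {K : α → Type}
  [∀ n, NormedAddCommGroup (K n)] [∀ n, InnerProductSpace ℝ (K n)] [∀ n, CompleteSpace (K n)]

variable (c K) in
/-- the connections on the Hilbert fibres -/
abbrev WH : ∀ n, ι → X n → CL (HV (c n) (K n)) (HV (c n) (K n)) := fun n => aA (K n) (WA c n)

section gx
variable {B : ∀ n, Base (X n) ι lam} {G : ∀ n, Geo I (X n) ι lam} {F : Filter (Σ n, X n)}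
  (h : Gx B G c F) {L : Sy ι X} {dw : ℕ} {σ σ' τ : ℕ → ℕ × ℕ} {s t : ∀ n, X n → HV (c n) (K n)}
include h

theorem sH (n : α) (a : ι) : Sm I (WH c K n a) := sm_WK (h.cn n) a

theorem wt_amp {C : Ctx I ι X} {T : ∀ n, X n → En (Fin (c n).m.N × Fin (c n).m.N)}
    (hT : Wt C (fun n => hom (WA c n) (WA c n)) σ T) :
    Wt C (fun n => hom (WH c K n) (WH c K n)) σ fun n x => amp (K n) (T n x) :=
  Wt.map (T := fun n _ => amp (K n)) (K := 1) (fun n => sm_hom (sH h n) (sH h n))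
    (fun _ => contMDiff_const) (fun _ _ => norm_amp_le)
    (fun n a x => ContinuousLinearMap.ext fun S => by
      rw [dv_cst, zero_add]
      change amp (K n) _ * amp (K n) S - amp (K n) S * amp (K n) _ - amp (K n) (_ * S - S * _) = 0
      rw [map_sub, amp_mul, amp_mul, sub_self]) hT

theorem crv_H (hL : (gbs G c).Le (gfb G c F) L) (sm : ∀ n, Sm I (s n)) (hp : ∀ n, Fx (c n) (s n)) :
    Crv (gfb G c F) ((gfb G c F).cx L dw) (WH c K) s := by
  refine fun a a' => ⟨_, wt_amp h (h.wt_adc (h.wt_F hL (a, a'))), fun n v x => ?_⟩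
  have key : ∀ (v : List ι) {u : X n → HV (c n) (K n)}, Sm I u → Fx (c n) u →
      Fx (c n) (Dw I (G n).F.e (WH c K n) v u) := by
    intro v
    induction v with
    | nil => exact fun _ h => h
    | cons a v ih =>
      exact fun hu hp => ih (sm_nab (Wz78.frm (G n).F).se (sH h n) hu a)
        (hp.nab (h.ok n) (h.cn n) hu a)
  have e := curv_aA (K := K n) (F := (G n).F) (h.sA n) a a' x
  refine (congrArg (fun T : CL _ _ => T _) e).trans (ext_ct (K := K n) fun g => ?_)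
  rw [ct_amp, ct_amp]
  exact Wz78.curv_adW_g (h.hB n) (h.hG n) (h.ok n) (h.cn n) a a' (ct_mem (key v (sm n) (hp n) x) g)

theorem wt_tp {C : Ctx I ι X} (hs : Wt C (WH c K) σ s) (ht : Wt C (WH c K) σ' t) (hc : Cn σ σ' τ) :
    Wt C (WA c) τ fun n x => tp (hr (K n) (adR _)) (s n x) (t n x) := by
  have e := fun n a x => tp_par (ρ := hr (K n) (adR _)) (sk_WK (h.cn n) a x) (h.kA n a x) (hr_adc _)
  have r := Wt.bil (D := WA c) (β := fun n => tpL (hr (K n) (adR _))) h.sA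
    (fun n => norm_tpL norm_hr) e hs ht hc
  exact r

end gx

variable (g c) in
/-- controlled fields on the Hilbert fibres -/
structure PK (s : ∀ n, X n → HV (c n) (K n)) : Prop where
  pf : ∀ x, g.Pf c x (WH c K) s
  bd : g.UB s
  fx : ∀ n, Fx (c n) (s n)

variable (g c) in
/-- convergent data of seeds -/
structure CC (d : ∀ n, Cy (X n)) (φ : ∀ n, X n → ℝ) (R : α → ℝ) (d₀ : Cy M) : Prop where
  f : g.FC c (fun n => (d n).f) d₀.f
  f' : g.FC c (fun n => (d n).f') d₀.f'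
  w : FL (g.cLa c) (fun n => (d n).w) fun _ => d₀.w
  w' : FL (g.cLa c) (fun n => (d n).w') fun _ => d₀.w'
  φ : ∃ φ₀, g.FC c φ φ₀
  R : ∃ R₀, ∀ᶠ n in (g.l : Filter α), R n ≤ R₀

theorem fl_xw {f f' : ∀ n, X n → ℝ} {f₀ f₀' : M → ℝ} (h : g.FC c f f₀) (h' : g.FC c f' f₀') :
    FL (g.cLa c) (fun n => xw (f n) (f' n)) fun _ => xw f₀ f₀' :=
  .cons (.mul h.qs) (.cons .G (.cons (.mul h'.qs) .nil))

theorem fc_flip {φ : ∀ n, X n → ℝ} {φ₀ : M → ℝ} (h : g.FC c φ φ₀) :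
    g.FC c (fun n x => 1 - φ n x) fun x => 1 - φ₀ x :=
  ⟨fun x => (Wt.cst (K := 1) (by simp)).sub (h.cb x), (Gs.UB.cst (t := fun _ _ => (1 : ℝ))
    fun _ _ => le_rfl).add' h.bd fun _ _ => norm_sub_le _ _, contMDiff_const.sub h.sm,
    (Cv.const 1).sub h.cv⟩

/-- open conditions at the limit hold near the approximating points -/
theorem fc_ev {φ : ∀ n, X n → ℝ} {φ₀ : M → ℝ} (h : g.FC c φ φ₀) {T : Set ℝ} (hT : IsOpen T) {x : M}
    (hx : φ₀ x ∈ T) : ∀ᶠ q in g.F g.Pᶜ x, ∀ᶠ z in 𝓝 q.2, φ q.1 z ∈ T :=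
  eventually_map.2 (ev_nF.2 ((((h.sm.continuous.continuousAt.eventually_mem
    (hT.mem_nhds hx)).filter_mono nhdsWithin_le_nhds).and self_mem_nhdsWithin).mono fun _ hy =>
      ((h.cv.tendsto hy.2).eventually_mem (hT.mem_nhds hy.1)).mono fun q hq =>
        ((h.cb x).sm q.1).continuous.continuousAt.eventually_mem (hT.mem_nhds hq)))

variable (k : g.Bk c) {s t u e b b' l' : ∀ n, X n → HV (c n) (K n)} {f f' φ : ∀ n, X n → ℝ}
  {f₀ f₀' φ₀ : M → ℝ}
  {l : ∀ n, X n → (c n).m.A} {l₀ : ∀ b : Cfg M ι lam r, M → b.m.A} {R : α → ℝ}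
  {J : ∀ n, K n → (X n → (c n).m.A) → Prop} {η : ∀ n, X n → Fm ι (c n).m.A}
  {w w₁ : ∀ n, List (La (X n))} {w' w₁' : Cfg M ι lam r → List (La M)}

include k

theorem pf_res {x : M} (sm : ∀ n, Sm I (u n)) (bd : g.UB u) (fx : ∀ n, Fx (c n) (u n))
    (e : ∀ n x, u n x + lap I (g.G n).F.e (g.G n).F.dv (WH c K n) (u n) x = s n x)
    (h : g.Pf c x (WH c K) s) : g.Pf c x (WH c K) u :=
  have a := k.gx x
  (PF.res (g := fun n => (g.G n).F.dv) a.gb.c a.gb.dv (fun n => sk_WK (a.cn n)) sm (bd.bd _ x)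
    (fun _ _ _ => crv_H a Sy.Le.rfl sm fx) e h.pL).wP

namespace PK

theorem vh {t : ∀ n, La (X n)} {t' : Cfg M ι lam r → La M} (ht : g.cLa c t t') (h : PK g c s)
    (e : ∀ n, vH (K n) (g.G n).F (WA c n) (c n).m.pg (t n) (s n) (u n)) : PK g c u := by
  have fx := fun n => fx_vH (h.fx n) (e n)
  cases ht with
  | mul hf =>
    obtain rfl : u = _ := funext e
    exact ⟨fun x => (hf.pf x).smul (h.pf x), hf.bd.mul h.bd fun _ _ => (norm_smul _ _).le, fx⟩
  | G =>
    have bd : g.UB u := h.bd.imp fun C hC => hC.mono fun n hn => (e n).1.le C hn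
    exact ⟨fun x => pf_res k (fun n => (e n).1.sm) bd fx (fun n => (e n).1.eq) (h.pf x), bd, fx⟩

theorem vw (hw : FL (g.cLa c) w w') (h : PK g c s)
    (e : ∀ n, VW (vH (K n) (g.G n).F (WA c n) (c n).m.pg) (s n) (w n) (u n)) : PK g c u :=
  FL.vw (σ' := fun _ => Unit) (op := fun _ _ _ => ()) (Q := fun s _ => PK g c s) (s₀' := fun _ => ())
    h (fun _ _ _ _ _ a b e => b.vh k a e) hw e

theorem ad (hl : g.QA c l l₀) (h : PK g c s) :
    PK g c fun n x => amp (K n) (adR _ ((c n).m.pg x (l n x))) (s n x) := by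
  refine ⟨fun x => PF.app (sH (k.gx x)) (((hl.pf x).one fun _ _ _ _ _ a =>
    wt_amp (k.gx x) ((k.gx x).wt_adc a)).congr fun n y => by rw [pg_of_mem (hl.p n y)]; rfl) (h.pf x),
    (hl.bd.add hl.bd).mul h.bd fun n x => (norm_hr_ad _ _).trans_eq ?_, fun n => (h.fx n).ad _⟩
  rw [pg_of_mem (hl.p n x), ← two_smul ℝ, norm_smul, Real.norm_two]

theorem ct {x : M} (h : g.Pf c x (WH c K) s) {a : ∀ n, K n} {C : ℝ}
    (ha : ∀ᶠ n in (g.l : Filter α), ‖a n‖ ≤ C) : g.Pf c x (WA c) fun n y => ct (a n) (s n y) :=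
  h.cb (T := fun n _ => Cyc79.ct (a n)) (k.gx x).sA (Wt.par
    (fun n => sm_hom (sH (k.gx x) n) ((k.gx x).sA n)) (fun _ => contMDiff_const)
    (Gs.ev_F (p := fun n _ => ‖(Cyc79.ct (a n) : CL (HV (c n) (K n)) _)‖ ≤ C) (ha.mono fun n hn _ =>
      (ContinuousLinearMap.opNorm_le_bound _ (norm_nonneg _) (norm_ct _)).trans hn))
    fun n i y => by
      rw [nab, dv_cst, zero_add, hom_apply]
      exact sub_eq_zero.2 (ContinuousLinearMap.ext fun v => (ct_amp (a n) (WA c n i y) v).symm))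
    fun _ => sP_mono

/-- the base fields -/
theorem bf (hf : g.FC c f f₀) (hφ : g.FC c φ φ₀) (hR : ∃ R₀, ∀ᶠ n in (g.l : Filter α), R n ≤ R₀)
    (h : ∀ n, BF (g.G n).F (WA c n) (c n).m.pg (J n) (f n) (f' n) (φ n) (R n) (b n)) : PK g c b := by
  choose w a1 a2 a3 a4 a5 using fun n => (h n).loc
  have fx := fun n => (h n).fx
  obtain rfl : b = fun n x => f n x • w n x := funext fun n => funext (a4 n)
  have bd : g.UB w := hR.imp fun _ h => h.mono fun n hn x => (a2 n x).trans hn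
  refine ⟨fun x => ?_, hf.bd.mul bd fun _ _ => (norm_smul _ _).le, fx⟩
  have z := PF.zero (b := g.fb c (g.F g.Pᶜ x)) (L₀ := g.bs c) (σ := sP) (sH (K := K) (k.gx x))
  rcases lt_or_ge (7 / 8) (φ₀ x) with hx | hx
  · refine PF.cs (hf.cb x) (pf_res k a1 bd a3 (fun _ _ => rfl) (z.congr_ev
      (fun n => (a1 n).add (Wz78.sm_lap (sH (k.gx x) n) (a1 n))) ?_)) fun _ => sP_mono
    exact (fc_ev hφ isOpen_Ioi hx).mono fun q hq => hq.mono fun y hy => a5 _ y hy
  · refine z.congr_ev (fun n => ((hf.cb x).sm n).smul (a1 n))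
      ((fc_ev hφ (isOpen_Iio (a := 1)) (hx.trans_lt (by norm_num))).mono fun q hq =>
        hq.mono fun y hy => ?_)
    beta_reduce
    rw [show f q.1 y = 0 from by_contra fun e => ((h _).sep y e).not_gt hy, zero_smul]

theorem cl (h : PK g c s) (h' : PK g c t)
    (e : ∀ n, vH (K n) (g.G n).F (WA c n) (c n).m.pg .G (s n) (u n))
    (e' : ∀ n, vH (K n) (g.G n).F (WA c n) (c n).m.pg .G (t n) (l' n)) :
    Th31.CL g c fun n => cur (g.G n).F (WH c K n) (hr (K n) (adR _)) (u n) (l' n) := fun x => by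
  have a := k.gx x
  have pr : ∀ n i y, ∑ j, (g.G n).F.P i j y • WH c K n j y = WH c K n i y := fun n i y => by
    simp only [aA, ← map_smul, ← map_sum, (a.hG n).P]
    exact congrArg _ ((Wz78.con_adW (a.cn n)).proj i y)
  have s1 := fun n => (e n).1.sm
  have s2 := fun n => (e' n).1.sm
  have r := cu_cur (b := g.fb c (g.F g.Pᶜ x)) (L₀ := g.bs c) (A := WH c K) (B := WA c)
    (F := fun n => (g.G n).F) (ρ := fun n => hr (K n) (adR _)) (g := fun n => (g.G n).F.dv)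
    (fun _ => rfl) a.gb.c a.gb.dv a.sA (fun n => sk_WK (a.cn n)) a.kA pr zero_le_two
    (fun _ => norm_hr) (fun n a x => hr_adc (K := K n) _) s1 s2 ((h.vh k .G e).bd.bd _ x)
    ((h'.vh k .G e').bd.bd _ x) (fun _ _ _ => crv_H a Sy.Le.rfl s1 fun n => (e n).2)
    (fun _ _ _ => crv_H a Sy.Le.rfl s2 fun n => (e' n).2)
    (fun n => (e n).1.eq) (fun n => (e' n).1.eq) (h.pf x).pL (h'.pf x).pL
  exact r

theorem vg (hw : FL (g.cLa c) w w') (h : PK g c s) : ∀ {t η}, PK g c t →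
    (∀ n, vG (g.G n).F (WA c n) (c n).m.pg (J n) (adR _) (R n) (e n) (s n) (w n) (t n) (η n)) →
      Th31.CL g c η := by
  induction hw with
  | nil => exact fun _ e => funext e ▸ fun x => .zero (k.gx x).sA
  | cons a hw ih =>
    intro t η ht e
    cases a with
    | mul hf => exact ih (ht.vh k (.mul hf) fun _ => rfl) e
    | G =>
      choose u₀ u l' η₀ a1 a2 a3 a4 a5 a6 using e
      obtain rfl : η = _ := funext a6
      exact fun x => (ih (ht.vh k .G a3) a5 x).sub (cl k (h.vw k hw a1) ht a2 a3 x)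

theorem vgh (hf : g.FC c f f₀) (hf' : g.FC c f' f₀') (hw : FL (g.cLa c) w w')
    (hw₁ : FL (g.cLa c) w₁ w₁') (hb : PK g c b) (hb' : PK g c b') (hs : PK g c s) (hl : g.QA c l l₀)
    (e : ∀ n, vgh (g.G n).F (WA c n) (c n).m.pg (J n) (adR _) (R n) (f n) (f' n) (b n) (b' n) (w n)
      (w₁ n) (fun x => adR _ ((c n).m.pg x (l n x))) (s n) (η n)) : Th31.CL g c η := by
  choose η₁ η₂ u m a1 a2 a3 a4 a5 using e
  obtain rfl : η = _ := funext a5
  have x1 := fl_append hw (fl_xw hf hf')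
  exact fun x => (vg k x1 hb' (hs.ad k hl) a1 x).add (vg k (fl_xw hf' hf) hb
    (((hb.vw k hw₁ a2).ad k hl).vw k (fl_reverse x1) a3) a4 x)

end PK

variable {d : ∀ n, Cy (X n)} {d₀ : Cy M} (h : CC g c d φ R d₀)
  (v : ∀ n, VC (g.G n).F (c n) (d n) (φ n) (R n))
include h

theorem CC.pb : PK g c fun n => (v n).b :=
  let ⟨_, a⟩ := h.φ; .bf k h.f a h.R fun n => (v n).bf

theorem CC.pb' : PK g c fun n => (v n).b' :=
  let ⟨_, a⟩ := h.φ; .bf k h.f' (fc_flip a) h.R fun n => (v n).bf'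

theorem CC.al : PK g c fun n => (v n).al :=
  (h.pb' k v).vw k (fl_append h.w (fl_xw h.f h.f')) fun n => (v n).wa

theorem CC.be : PK g c fun n => (v n).be :=
  (h.pb' k v).vw k (fl_append h.w' (fl_xw h.f h.f')) fun n => (v n).wb

/-- **CYC-PF** -/
theorem qc (hl : g.QA c l l₀) (hη : ∀ n, (v n).A (l n) (η n)) : Th31.CL g c η := by
  choose R' η₁ η₂ a1 a2 a3 a4 using hη
  obtain rfl : η = _ := funext a4
  exact fun x => (PK.vgh k h.f h.f' h.w' h.w (h.pb k v) (h.pb' k v) (h.al k v) hl a2 x).sub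
    (PK.vgh k h.f h.f' h.w h.w' (h.pb k v) (h.pb' k v) (h.be k v) hl a3 x)

end Crest.Agent.X212.Cyl12
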