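import Crest.Agent.X212.Cyl12.L2
import Crest.Agent.X212.Cmp73.Cv

-- ▼ part X212/Cyl12/Fj
section

/-!
# Row 212, CYC-LIM (helper12): the fields of a cyclic seed for ANY metric connection
-/

set_option autoImplicit false
set_option linter.unusedSectionVars false
noncomputable section
open scoped Manifold ContDiff Topology InnerProductSpace
open MeasureTheory Set Function Filter

namespace Crest.Agent.X212.Cyl12
open An Dgr80 Cyc79 Sob92 Mp86 Mon62 Prm93
open Wz78 (nab lap)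
open Abel74 (SBd)
open Ell97 (UB)
open Cmp73 (MB VW Rs)
open Wrd81 (wd)
open ContinuousLinearMap (adjoint)

variable {E : Type} [NormedAddCommGroup E] [NormedSpace ℝ E] [FiniteDimensional ℝ E]
  [MeasurableSpace E] [BorelSpace E]
  {HM : Type} [TopologicalSpace HM] {I : ModelWithCorners ℝ E HM} [I.Boundaryless]
  {M : Type} [TopologicalSpace M] [ChartedSpace HM M] [IsManifold I ∞ M]
  [MeasurableSpace M] [T2Space M] [BorelSpace M] [SecondCountableTopology M]
  {ι : Type} [Fintype ι] {F : Fr I M ι} {C : ℕ → ℝ}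

section loc
variable {V : Type} [NormedAddCommGroup V] [InnerProductSpace ℝ V] {A : ι → M → V →L[ℝ] V}

/-- interior estimates for solutions of the homogeneous equation (after `Mon62.mb_res`) -/
theorem mb_loc (hF : F.Tame C) (hA : ∀ a, F.Cb (A a)) {u : ℕ → M → V} (hu : ∀ n, F.Cb (u n)) {R : ℝ}
    (hR : ∀ n x, ‖u n x‖ ≤ R) {ψ : M → ℝ} (p1 : F.Cb ψ) (p3 : ∀ x, 0 ≤ ψ x) {x : M}
    (p4 : ∀ᶠ y in 𝓝 x, ψ y = 1) (he : ∀ n y, ψ y ≠ 0 → u n y + lap I F.e F.dv A (u n) y = 0)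
    (k : ℕ) : MB I atTop x k u := by
  classical
  let s : ℕ → M → V := fun n y => u n y + lap I F.e F.dv A (u n) y
  obtain ⟨ε, e1, e2⟩ := exists_eps (F := F.toPre) (f := s) fun n =>
    Cb_add (hu n) (cb_lap hF hA (hu n))
  let ρ : ℕ → M → ℝ := fun n x => ψ x + ε n
  have r1 : UB (fun _ => F.toPre) ρ := (ub_fx p1).add (Dm.ub_const
    ⟨1, fun n => by rw [Real.norm_of_nonneg (e1 n).1.le]; exact (e1 n).2⟩)
  have r0 : ∀ n x, ρ n x ≠ 0 := fun n x => (add_pos_of_nonneg_of_pos (p3 x) (e1 n).1).ne'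
  let G : ℕ → Fr I M ι := fun n => cfr F (ρ n) (r1.sm n) (r0 n)
  have hS := fun a b : ι => (UB.const (F := fun _ : ℕ => F.toPre)
    (if a = b then (1 : ℝ) else 0)).smul r1
  have up : ∀ {N : Type} [NormedAddCommGroup N] [NormedSpace ℝ N] {f : ℕ → M → N},
      UB (fun _ => F.toPre) f → UB (fun n => (G n).toPre) f := ub_mix (fun _ => cfr_mix) hS
  have a1 := fun a => up (r1.smul (ub_fx (hA a)))
  have s1 : UB (fun _ => F.toPre) fun n x => ρ n x • s n x := by
    convert e2 using 3 with n y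
    by_cases h : ψ y = 0
    · simp [ρ, h]
    · simp [s, he n y h]
  have hd : ∀ a, UB (fun n => (G n).toPre) fun n => (G n).dv a := fun a =>
    up ((r1.smul (ub_fx ⟨C, hF.dv a⟩)).add (r1.D a))
  have su := fun n => cb_sm (hu n)
  have h0 : Od (fun n => (G n).toPre) u 0 u := Od.wd []
  have hU : UB (fun n => (G n).toPre) u := bern (F := G) (fun a b l => up (((r1.smul
      (ub_fx ⟨C, hF.c a b l⟩)).add ((r1.D a).smul (ub_fx ⟨C, hF.P b l⟩))).sub
      ((r1.D b).smul (ub_fx ⟨C, hF.P a l⟩)))) hd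
    (fun n => bumps_mix hF cfr_mix (fun a b => (hS a b).cb n) fun a => (hd a).cb n)
    (fun n => cfr_mix.Cb (fun a b => (hS a b).cb n) (hu n)) hR
    (od_lap (A := fun n a x => ρ n x • A a x) hd a1 su
      (((((Od.cst (up s1)).sub ((h0.mono zero_le_one).smul (up r1))).smul (up r1)).sub
        (Od.sum Finset.univ fun a => ((h0.D su a).add ((h0.app (a1 a)).mono
          zero_le_one)).smul (up ((UB.const (2 : ℝ)).smul (r1.D a))))).congr fun n y => by
        rw [cfr_lap (fun a => cb_sm (hA a)) (su n), ← smul_sub, add_sub_cancel_left]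
        rfl))
  have key : ∀ {f : ℕ → M → V}, UB (fun n => (G n).toPre) f → MB I atTop x k f := by
    have z : ∀ {f : ℕ → M → V}, UB (fun n => (G n).toPre) f → MB I atTop x 0 f := fun ⟨C, hC⟩ =>
      MB.zero_of (.of_forall fun q => (hC q.1).1 q.2)
        ⟨C 0, .of_forall fun q => CB_bound ((hC q.1).2 0) q.2⟩
    induction k with
    | zero => exact z
    | succ k ih =>
      refine fun {f} hf => MB.gainP F.toPre (z hf) fun a =>
        ((MB.consts (c := fun n => (1 + ε n)⁻¹) ⟨1, .of_forall fun n => ?_⟩).smul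
          (ih (hf.D a))).congr ?_
      · rw [Real.norm_of_nonneg (inv_nonneg.2 (by linarith [(e1 n).1]))]
        exact inv_le_one_of_one_le₀ (by linarith [(e1 n).1])
      · filter_upwards [prod_mem_prod univ_mem p4] with q hq
        rw [cfr_D]
        simp only [ρ, show ψ q.2 = 1 from hq.2]
        rw [inv_smul_smul₀ (by linarith [(e1 q.1).1])]
  exact key hU

theorem exists_bump {O : Set M} {x : M} (h : O ∈ 𝓝 x) : ∃ η : M → ℝ, Sm I η ∧
    HasCompactSupport η ∧ (∀ y, 0 ≤ η y ∧ η y ≤ 1) ∧ (∀ y, η y ≠ 0 → y ∈ O) ∧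
      ∀ᶠ y in 𝓝 x, η y = 1 := by
  obtain ⟨η, -, hη⟩ := (SmoothBumpFunction.nhds_basis_tsupport (I := I) x).mem_iff.1 h
  exact ⟨η, η.contMDiff, η.hasCompactSupport, fun y => ⟨η.nonneg, η.le_one⟩,
    fun y hy => hη (subset_tsupport _ hy), η.eventuallyEq_one⟩

/-- **limits of bounded solutions are smooth** -/
theorem sm_lim [FiniteDimensional ℝ V] (hF : F.Tame C) (hA : ∀ a, Sm I (A a)) {O : Set M}
    (hO : IsOpen O) {v : ℕ → M → V} (hv : ∀ n, Sm I (v n)) {R : ℝ} (hR : ∀ n, ∀ x ∈ O, ‖v n x‖ ≤ R)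
    (he : ∀ n, ∀ x ∈ O, v n x + lap I F.e F.dv A (v n) x = 0) {g : M → V}
    (hg : ∀ x ∈ O, Tendsto (v · x) atTop (𝓝 (g x))) {x : M} (hx : x ∈ O) :
    ContMDiffAt I 𝓘(ℝ, V) ∞ g x := by
  refine (⟨fun k x hx => ?_, hg⟩ : Cmp73.Cv I atTop O v g).smoothAt hO hx
  obtain ⟨η, a1, a2, a3, a4, a5⟩ := exists_bump (I := I) (hO.mem_nhds hx)
  obtain ⟨ψ, b1, b2, b3, b4, b5⟩ := exists_bump (I := I) a5.eventually_nhds
  refine (mb_loc (A := fun a y => η y • A a y) (u := fun n y => η y • v n y) (R := |R|) hF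
    (fun a => Cb_of_hcs (a1.smul (hA a)) a2.smul_right)
    (fun n => Cb_of_hcs (a1.smul (hv n)) a2.smul_right) (fun n y => ?_) (Cb_of_hcs b1 b2)
    (fun y => (b3 y).1) b5 (fun n y hy => ?_) k).congr ?_
  · by_cases h : η y = 0
    · simp [h]
    · rw [norm_smul, Real.norm_of_nonneg (a3 y).1]
      exact (mul_le_of_le_one_left (norm_nonneg _) (a3 y).2).trans
        ((hR n y (a4 y h)).trans (le_abs_self _))
  · have e : ∀ᶠ z in 𝓝 y, η z = 1 := b4 y hy
    have e1 := e.self_of_nhds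
    rw [← he n y (a4 y (by rw [e1]; exact one_ne_zero)), e1, one_smul]
    refine congrArg _ ?_
    rw [Eqv71.lap_congr (e.mono fun z hz => by simp only [hz, one_smul] :
      (fun y => η y • v n y) =ᶠ[𝓝 y] v n)]
    simp only [lap]
    refine congrArg _ (Finset.sum_congr rfl fun a _ => ?_)
    have k : nab I F.e (fun a y => η y • A a y) a (v n) =ᶠ[𝓝 y] nab I F.e A a (v n) :=
      e.mono fun z hz => by simp only [nab, hz, one_smul]
    rw [Wz78.nab_congr _ k, k.eq_of_nhds]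
    simp only [nab, e1, one_smul]
  · filter_upwards [prod_mem_prod univ_mem a5] with q hq
    rw [show η q.2 = 1 from hq.2, one_smul]

end loc

variable {κ : Type} [Fintype κ] [DecidableEq κ] {A : ι → M → En κ} {p : M → En κ}
  {K : Type} [NormedAddCommGroup K] [InnerProductSpace ℝ K] [CompleteSpace K]
  {K' : Type} [NormedAddCommGroup K'] [InnerProductSpace ℝ K'] [CompleteSpace K']
  {α β : M → Fm κ K} {f f' φ : M → ℝ} {S N : ℝ}

theorem sbd_ct (h : SBd I α) (k : K) : SBd I fun z => ct k (α z) := (SBd.const (ct k)).app h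

theorem sbd_fb (h : SBd I α) (R : K →L[ℝ] K') : SBd I fun z => fb R (α z) := (SBd.const (fb R)).app h

theorem sbd_amp {T : M → En κ} (hT : SBd I T) (h : SBd I α) : SBd I fun z => amp K (T z) (α z) :=
  ((SBd.const (amp K)).app hT).app h

/-- the resolvent on the Hilbert fibre -/
theorem res_amp (hT : F.Tame C) (hA : Mc I A) (hs : SBd I α) :
    F.IsRes (aA K A) α (F.res (aA K A) α) ∧
      ∀ h z, ct h (F.res (aA K A) α z) = F.res A (fun x => ct h (α x)) z := by
  have hB := bumps_of_tame F hT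
  have e := fun h : K => isRes_sbd hT hA (sbd_ct hs h)
  obtain ⟨D, hD⟩ := hs.2
  let φ : M → K →L[ℝ] Eu κ := fun z => LinearMap.mkContinuous
    { toFun := fun h => F.res A (fun x => ct h (α x)) z
      map_add' := fun h h' => by
        rw [← congrFun (res_add hB hA ⟨_, e h⟩ ⟨_, e h'⟩) z]
        exact congrArg (F.res A · z)
          (funext fun x => congrArg (· (α x)) ((Ten12.ctL κ K).map_add h h'))
      map_smul' := fun a h => by
        rw [RingHom.id_apply, ← congrFun (res_smul hB hA a _) z]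
        exact congrArg (F.res A · z)
          (funext fun x => congrArg (· (α x)) ((Ten12.ctL κ K).map_smul a h)) }
    D fun h => norm_res_le hB hA (fun x => (norm_ct h _).trans
      ((mul_le_mul_of_nonneg_left (hD x) (norm_nonneg h)).trans_eq (mul_comm _ _))) z
  have hφ : ∀ h, (fun z => ct h (Ten12.rz κ K (φ z))) = F.res A fun x => ct h (α x) := fun h =>
    funext fun z => Ten12.ct_rz _ h
  have hr : F.IsRes (aA K A) α fun z => Ten12.rz κ K (φ z) :=
    isRes_of_ct hA.sm (sm_of_ct fun h => hφ h ▸ (e h).1) ⟨_, fun z => (Ten12.norm_rz _).trans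
      (mul_le_mul_of_nonneg_left (LinearMap.mkContinuous_norm_le' _ _) (Real.sqrt_nonneg _))⟩
      fun h => hφ h ▸ e h
  rw [res_eq (A := aA K A) hB ⟨sm_aA hA.sm, fun a x => skew_amp (hA.sk a x)⟩ hr]
  exact ⟨hr, fun h z => congrFun (hφ h) z⟩

/-! ### the base field -/

theorem _root_.Crest.Agent.X212.Cyc79.Pq.sbd (h : Pq F A p) : SBd I p :=
  ⟨h.sm, 1, fun x => ContinuousLinearMap.opNorm_le_bound _ zero_le_one
    fun v => by simpa using h.norm_le x v⟩

theorem _root_.Crest.Agent.X212.Cyc79.Pq.fix (h : Pq F A p) {s : M → Eu κ}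
    (hs : ∀ x, p x (s x) = s x) (x : M) : p x (F.res A s x) = F.res A s x :=
  res_fix h.bmp h.mc h.sm h.sbd.2 (fun x => Abel74.itw_of fun a => h.par a x) hs x

theorem _root_.Crest.Agent.X212.Cyc79.Pq.pp (h : Pq F A p) (x : M) (v : Eu κ) :
    p x (p x v) = p x v := by rw [← mul_apply_eq_comp, h.idem]

theorem sm_cf (h : Sm I φ) (k s : ℝ) : Sm I (cf k s φ) :=
  Real.smoothTransition.contDiff.contMDiff.comp (contMDiff_const.mul (h.sub contMDiff_const))

theorem isFld_cf (h : Pq F A p) (hφ : Cu F N φ) (hN : 0 < N) (hf : SBd I f')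
    (h0 : ∀ x, f' x ≠ 0 → φ x ≤ 0) : IsFld F.toPre (fun u z => cf 8 (3 / 4) φ z •
      F.res A (fun y => f' y • p y (u y)) z) (bs F A p (cf 8 (3 / 4) φ) f') := by
  obtain ⟨C, hT⟩ := h.tame
  obtain ⟨m, hm⟩ := hf.2
  have m1 := one_le_mS
  have sb := fun u : Sec I (triv M (Eu κ)) => hf.smul (h.sbd.app (sbd_sec u))
  have r := fun u => isRes_sbd hT h.mc (sb u)
  set ζ := cf 3 (1 / 3) φ
  set c := 6 * kL (|C 0| + 1) (2 * (mS * 3) ^ 2 * N)
  have c0 : 0 ≤ c := mul_nonneg (by norm_num) (kL_nonneg (by positivity) (by positivity))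
  let L : M → Sec I (triv M (Eu κ)) →ₗ[ℝ] Eu κ := fun z =>
    { toFun := fun u => ζ z • F.res A (fun y => f' y • p y (u.1 y)) z
      map_add' := fun u v => by
        rw [← smul_add, ← congrFun (res_add h.bmp h.mc ⟨_, r u⟩ ⟨_, r v⟩) z]
        simp [smul_add]
      map_smul' := fun a u => by
        rw [RingHom.id_apply, smul_comm a, ← congrFun (res_smul h.bmp h.mc a _) z]
        simp [smul_comm a] }
  have b : ∀ z u, ‖L z u‖ ≤ √c * |m| * F.nrm 0 u.1 := fun z u => by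
    have k := sup_w hT h.mc wu_one ((l4_of_tame hT).mono (by linarith [le_abs_self (C 0)]))
      (by positivity : 0 < |C 0| + 1) (hφ.cf (k := 3) (by norm_num) 0)
      (hφ.cf (k := 3) (by norm_num) (1 / 3)) (by positivity) (cf_abs _ _) (cf_abs _ _)
      (s := fun y => f' y • p y (u.1 y))
      (fun x hx => by rw [by_contra fun e => hx (cf_zero (by norm_num) (h0 x e)), zero_smul])
      (fun x hx => cf_one (by
        have : ¬φ x ≤ 1 / 3 := fun e => hx (cf_zero (by norm_num) e)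
        linarith [not_le.1 this])) (sb u).1.continuous
      (u.2.2.1.mono fun y hy e => hy (by simp [e])) z
    rw [← Pre.norm_toH]
    refine (abs_le_of_sq_le_sq' (k.trans ?_) (by positivity)).2
    rw [mul_one, mul_pow (_ * _), mul_pow √c, Real.sq_sqrt c0, sq_toH, mul_assoc c,
      ← integral_const_mul (|m| ^ 2)]
    refine mul_le_mul_of_nonneg_left (integral_mono_of_nonneg (.of_forall fun y => by positivity)
      ((int_is (Is.toH u)).const_mul _) (.of_forall fun y => ?_)) c0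
    simp only [inv_one, one_mul, norm_smul, ← mul_pow]
    gcongr
    exacts [(hm y).trans (le_abs_self _), h.norm_le y _]
  choose T t1 t2 using fun z => Pre.exists_ext (F := F.toPre) (k := 0) (L z) (by positivity) (b z)
  have key : IsFld F.toPre (fun u z => cf 8 (3 / 4) φ z • F.res A (fun y => f' y • p y (u y)) z)
      fun z => cf 8 (3 / 4) φ z • Ten12.rz κ _ (T z) := by
    refine ⟨sm_of_ct fun k x => ?_, fun u z => ?_⟩
    · simp only [map_smul, Ten12.ct_rz]
      rcases lt_or_ge (φ x) (3 / 4) with hx | hx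
      · refine (contMDiffAt_const (c := 0)).congr_of_eventuallyEq ?_
        filter_upwards [hφ.sm.continuous.continuousAt.eventually_lt_const hx] with y hy
        rw [cf_zero (by norm_num) hy.le, zero_smul]
      obtain ⟨g, g1, g2⟩ := mem_closure_iff_seq_limit.1 (F.dense_toH 0 (triv M (Eu κ)) k)
      choose u hu using g1
      obtain ⟨D, hD⟩ := g2.norm.bddAbove_range
      have z1 : ∀ y, 2 / 3 < φ y → ∀ n, F.res A (fun y => f' y • p y ((u n).1 y)) y = T y (g n) :=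
        fun y hy n => by
          rw [← hu, t1]
          exact (by rw [show ζ y = 1 from cf_one (by linarith), one_smul] :
            _ = ζ y • F.res A (fun y => f' y • p y ((u n).1 y)) y)
      refine (sm_cf hφ.sm _ _ x).smul (sm_lim (O := {y | 2 / 3 < φ y}) (R := √c * |m| * D) hT h.mc.sm
        (isOpen_lt continuous_const hφ.sm.continuous) (fun n => (r (u n)).1) (fun n y hy => ?_)
        (fun n y hy => ?_) (fun y hy => ?_) (show 2 / 3 < φ x by linarith))
      · rw [z1 y hy]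
        exact (T y).le_of_opNorm_le_of_le (t2 y) (hD ⟨n, rfl⟩)
      · rw [(r (u n)).2.2]
        beta_reduce
        rw [by_contra fun e => absurd (h0 y e) (not_le.2 (lt_trans (by norm_num) hy)), zero_smul]
      · simp only [z1 y hy]
        exact ((T y).continuous.tendsto k).comp g2
    · rw [map_smul, Ten12.ct_rz, t1]
      by_cases hz : φ z ≤ 3 / 4
      · simp only [cf_zero (by norm_num : (0 : ℝ) ≤ 8) hz, zero_smul]
      · exact congrArg _ (by rw [show ζ z = 1 from cf_one (by linarith [not_le.1 hz]), one_smul] :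
          ζ z • F.res A (fun y => f' y • p y (u.1 y)) z = _)
  rw [bs, key.eq]
  exact key

theorem isFld_bs (h : Pq F A p) (hφ : Cu F N φ) (hN : 0 < N) (hf : Sm I f) (hf' : SBd I f')
    (h1 : ∀ x, f x ≠ 0 → 1 ≤ φ x) (h0 : ∀ x, f' x ≠ 0 → φ x ≤ 0) :
    IsFld F.toPre (fun u z => f z • F.res A (fun y => f' y • p y (u y)) z) (bs F A p f f') ∧
      ∀ z, bs F A p f f' z = f z • bs F A p (cf 8 (3 / 4) φ) f' z := by
  have k := isFld_cf h hφ hN hf' h0
  have key : IsFld F.toPre (fun u z => f z • F.res A (fun y => f' y • p y (u y)) z)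
      fun z => f z • bs F A p (cf 8 (3 / 4) φ) f' z := ⟨hf.smul k.1, fun u z => by
    rw [map_smul, k.2]
    beta_reduce
    by_cases hz : f z = 0
    · simp [hz]
    · rw [cf_one (by linarith [h1 z hz]), one_smul]⟩
  have e : bs F A p f f' = _ := key.eq
  exact ⟨e ▸ key, congrFun e⟩

theorem fix_bs (h : Pq F A p)
    (k : IsFld F.toPre (fun u z => f z • F.res A (fun y => f' y • p y (u y)) z) (bs F A p f f'))
    (z : M) : amp _ (p z) (bs F A p f f' z) = bs F A p f f' z :=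
  ext_toH fun u => by
    rw [ct_amp, k.2, map_smul, h.fix fun x => by rw [map_smul, h.pp]]

theorem hom_bs (h : Pq F A p) (hf' : SBd I f')
    (k : IsFld F.toPre (fun u z => f z • F.res A (fun y => f' y • p y (u y)) z) (bs F A p f f'))
    {z : M} (hz : ∀ᶠ y in 𝓝 z, f y = 1) (h0 : f' z = 0) :
    bs F A p f f' z + lap I F.e F.dv (aA _ A) (bs F A p f f') z = 0 :=
  ext_toH fun u => by
    have r := isRes_sbd h.tame.choose_spec h.mc (hf'.smul (h.sbd.app (sbd_sec u)))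
    have e : (fun y => ct (F.toH 0 _ u) (bs F A p f f' y)) =ᶠ[𝓝 z]
        F.res A fun y => f' y • p y (u.1 y) := hz.mono fun y hy => by simp only [k.2, hy, one_smul]
    rw [map_add, ← ct_lap h.mc.sm k.1, Eqv71.lap_congr e, e.eq_of_nhds, r.2.2]
    simp [h0]

/-! ### fields of operators -/

variable (F) in
/-- `α` is the field of `S` -/
def FJ (S : K →L[ℝ] KK F.toPre κ) (α : M → Fm κ K) : Prop :=
  SBd I α ∧ ∀ h, Is F.toPre 0 _ (S h) fun z => ct h (α z)

theorem isClosed_is (S : K →L[ℝ] KK F.toPre κ) (α : M → Fm κ K) :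
    IsClosed {h | Is F.toPre 0 _ (S h) fun z => ct h (α z)} :=
  IsSeqClosed.isClosed fun g h hg hl => by
    obtain ⟨n, n1, n2⟩ := (tendstoInMeasure_of_tendsto_Lp ((((F.toL2 0 _).continuous.comp
      S.continuous).tendsto h).comp hl)).exists_seq_tendsto_ae
    filter_upwards [n2, ae_all_iff.2 hg] with z a b
    refine tendsto_nhds_unique a ?_
    simp only [comp_apply, b]
    exact ((cont_ct _).tendsto h).comp (hl.comp n1.tendsto_atTop)

namespace FJ
variable {S T : K →L[ℝ] KK F.toPre κ}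

theorem lj (h : FJ F S α) (k : K) : LJ F (S k) fun z => ct k (α z) := ⟨sbd_ct h.1 k, h.2 k⟩

theorem unique (h : FJ F S α) (k : FJ F S β) : α = β :=
  funext fun z => ext_ct fun g => congrFun ((h.lj g).eq (k.lj g)) z

theorem op_eq (h : FJ F S α) (k : FJ F T α) : S = T :=
  ContinuousLinearMap.ext fun g => (h.2 g).unique (k.2 g)

theorem right (h : FJ F S α) (R : K' →L[ℝ] K) : FJ F (S ∘L R) fun z => fb (adjoint R) (α z) :=
  ⟨sbd_fb h.1 _, fun k => by simpa only [ct_fb, ContinuousLinearMap.comp_apply] using h.2 (R k)⟩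

theorem op (h : FJ F S α) {B : M → En κ} (hB : SBd I B) :
    FJ F (mO F.toPre B ∘L S) fun z => amp K (B z) (α z) :=
  let ⟨c, hc⟩ := hB.2
  ⟨sbd_amp hB h.1, fun k => by
    simpa only [ct_amp, ContinuousLinearMap.comp_apply] using ((jo_mul hB.1 (abs_nonneg c)
      fun x => (hc x).trans (le_abs_self c)).2.1 _ _ (h.lj k)).2⟩

theorem res (h : FJ F S α) (hT : F.Tame C) (hA : Mc I A) {G : KK F.toPre κ →L[ℝ] KK F.toPre κ}
    (hG : JO F G (F.res A)) : FJ F (G ∘L S) (F.res (aA K A) α) :=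
  ⟨⟨sm_res F _ _, bdd_res F _ _⟩, fun k => by
    simpa only [(res_amp hT hA h.1).2, ContinuousLinearMap.comp_apply] using (hG _ _ (h.lj k)).2⟩

theorem st {S : KK F.toPre κ →L[ℝ] KK F.toPre κ} {e a γ : M → VV F.toPre κ} (h : FJ F S e) {R : ℝ}
    (ha : ∀ z, a z = fb S (γ z)) (hγ : ∀ z, ‖γ z‖ ≤ R) : St (LJ F) R e a := fun z v hv =>
  ⟨dot (γ z) v, (norm_dot _ _).trans ((mul_le_of_le_one_right (norm_nonneg _) hv).trans (hγ z)), by
    rw [show dot (a z) v = S (dot (γ z) v) by simp [dot, ha]]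
    exact h.lj _⟩

end FJ

theorem sbd_one (hf : SBd I f) : SBd I fun x => f x • (1 : En κ) := hf.smul (SBd.const _)

variable (F p) in
/-- the operator `f G f' p` -/
def xJ (G : KK F.toPre κ →L[ℝ] KK F.toPre κ) (f f' : M → ℝ) : KK F.toPre κ →L[ℝ] KK F.toPre κ :=
  mO F.toPre (fun x => f x • 1) ∘L G ∘L mO F.toPre (fun x => f' x • 1) ∘L mO F.toPre p

variable {G : KK F.toPre κ →L[ℝ] KK F.toPre κ}

theorem jo_sbd {T : M → En κ} (hT : SBd I T) : JO F (mO F.toPre T) fun σ x => T x (σ x) :=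
  let ⟨c, hc⟩ := hT.2
  (jo_mul hT.1 (abs_nonneg c) fun x => (hc x).trans (le_abs_self c)).2.1

theorem jo_xJ (h : Pq F A p) (hG : JO F G (F.res A)) (hf : SBd I f) (hf' : SBd I f') :
    JO F (xJ F p G f f') fun σ z => f z • F.res A (fun y => f' y • p y (σ y)) z :=
  (jo_sbd (sbd_one hf)).comp (hG.comp ((jo_sbd (sbd_one hf')).comp (jo_sbd h.sbd)))

theorem fj_bs (h : Pq F A p) (hG : JO F G (F.res A)) (hf : SBd I f) (hf' : SBd I f')
    (k : IsFld F.toPre (fun u z => f z • F.res A (fun y => f' y • p y (u y)) z) (bs F A p f f'))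
    (hb : ∃ c, ∀ z, ‖bs F A p f f' z‖ ≤ c) : FJ F (xJ F p G f f') (bs F A p f f') :=
  ⟨⟨k.1, hb⟩, fun g => (F.dense_toH 0 _).induction_on g (isClosed_is _ _) fun u => by
    simpa only [k.2] using (jo_xJ h hG hf hf' _ _ (lj_toH u)).2⟩

theorem FJ.fix {S : K →L[ℝ] KK F.toPre κ} (k : FJ F S α) (h : Pq F A p)
    (e : ∀ z, amp K (p z) (α z) = α z) : mO F.toPre p ∘L S = S :=
  (by simpa only [e] using k.op h.sbd : FJ F _ α).op_eq k

theorem adj_xJ (h : Pq F A p) (hG : adjoint G = G) (hf : SBd I f) (hf' : SBd I f')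
    (e : mO F.toPre p ∘L xJ F p G f f' = xJ F p G f f')
    (e' : mO F.toPre p ∘L xJ F p G f' f = xJ F p G f' f) :
    adjoint (xJ F p G f' f) = xJ F p G f f' := by
  have s : ∀ {f : M → ℝ}, SBd I f → adjoint (mO F.toPre fun x => f x • (1 : En κ)) =
      mO F.toPre fun x => f x • 1 := fun k => adj_mul (sbd_one k) (sbd_one k) fun z v w => by
    simp [inner_smul_left, inner_smul_right]
  have sp := adj_mul (F := F) h.sbd h.sbd h.sym
  rw [← e', ← e]
  simp only [xJ, ContinuousLinearMap.adjoint_comp, s hf, s hf', sp, hG,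
    ContinuousLinearMap.comp_assoc]

end Crest.Agent.X212.Cyl12
end
end

-- ▼ part X212/Cyl12/Lit

/-!
# Row 212, CYC-LIM (helper12): LIT, the literal cyclic seed is a value
-/

set_option autoImplicit false
set_option linter.unusedSectionVars false
noncomputable section
open scoped Manifold ContDiff Topology InnerProductSpace
open MeasureTheory Set Function Filter

namespace Crest.Agent.X212.Cyl12
open An Dgr80 Cyc79 Sob92
open Mp86 hiding kB
open Wz78 (nab lap)
open Abel74 (SBd)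
open Cmp73 (VW Rs vw_wd)
open Wrd81 (wd)
open ContinuousLinearMap (adjoint)

variable {E : Type} [NormedAddCommGroup E] [NormedSpace ℝ E] [FiniteDimensional ℝ E]
  [MeasurableSpace E] [BorelSpace E]
  {HM : Type} [TopologicalSpace HM] {I : ModelWithCorners ℝ E HM} [I.Boundaryless]
  {M : Type} [TopologicalSpace M] [ChartedSpace HM M] [IsManifold I ∞ M]
  [MeasurableSpace M] [T2Space M] [BorelSpace M] [SecondCountableTopology M]
  {ι : Type} [Fintype ι] {F : Fr I M ι}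
  {κ : Type} [Fintype κ] [DecidableEq κ] {A : ι → M → En κ} {p L : M → En κ}
  {U : Type} [NormedAddCommGroup U] [InnerProductSpace ℝ U] [CompleteSpace U]
  {α β γ s l e : M → VV F.toPre κ} {f f' φ : M → ℝ} {S k R T : ℝ} {n : ℕ} {w w' : List (La M)}
  {G X Y : KK F.toPre κ →L[ℝ] KK F.toPre κ} {t : La M}

variable (I) in
/-- smooth letters of size `k` -/
def LK (k : ℝ) : La M → Prop
  | .mul f => Sm I f ∧ ∀ x, |f x| ≤ k
  | .G => True

theorem LK.mono (h : LK I k t) {k' : ℝ} (hk : k ≤ k') : LK I k' t := by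
  cases t with
  | mul f => exact ⟨h.1, fun x => (h.2 x).trans hk⟩
  | G => trivial

theorem lk_of (h : La.OK F t) (h' : LaSz n t) : LK I n t := by
  cases t with
  | mul f => exact ⟨cb_sm h, h'⟩
  | G => trivial

theorem LK.sbd (h : LK I k (.mul f)) : SBd I f := ⟨h.1, k, h.2⟩

theorem lk_xw (h : LK I k (.mul f)) (h' : LK I k (.mul f')) : ∀ t ∈ xw f f', LK I k t := by
  simp only [xw, List.mem_cons, List.not_mem_nil, or_false]
  rintro t (rfl | rfl | rfl)
  exacts [h, trivial, h']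

variable (F A) in
/-- letters -/
abbrev sv (t : La M) : (M → VV F.toPre κ) → M → VV F.toPre κ := sl F (aA _ A) (laV _ t)

theorem wd_sv : wd (sl F (aA _ A)) s (w.map (laV _)) = wd (sv F A) s w := List.foldr_map

variable (F p) in
/-- the class of fields -/
def QB (α : M → VV F.toPre κ) : Prop := SBd I α ∧ ∀ x, amp _ (p x) (α x) = α x

theorem sbd_sv (ht : LK I k t) (hs : SBd I s) : SBd I (sv F A t s) := by
  cases t with
  | mul f => exact ht.sbd.smul hs
  | G => exact ⟨sm_res F _ _, bdd_res F _ _⟩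

theorem sbd_wd (hw : ∀ t ∈ w, LK I k t) (hs : SBd I s) : SBd I (wd (sv F A) s w) :=
  (vw_wd (st := fun _ _ _ => True) (op := sv F A) hs (fun _ _ a b => ⟨sbd_sv a b, trivial⟩) w hw).1

section
variable (h : Pq F A p)
include h

theorem qb_sv (t : La M) (s : M → VV F.toPre κ) (ht : LK I k t) (hs : QB F p s) :
    QB F p (sv F A t s) ∧ vH _ F A p t s (sv F A t s) := by
  cases t with
  | mul f => exact ⟨⟨sbd_sv ht hs.1, fun x => (map_smul _ _ _).trans (congrArg _ (hs.2 x))⟩, rfl⟩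
  | G =>
    have r := res_amp h.tame.choose_spec h.mc hs.1
    have e : ∀ x, amp _ (p x) (F.res (aA _ A) s x) = F.res (aA _ A) s x := fun x => ext_ct fun g => by
      rw [ct_amp, r.2, h.fix fun y => by rw [← ct_amp, hs.2]]
    exact ⟨⟨sbd_sv ht hs.1, e⟩, ⟨r.1.1, r.1.2.2, fun _ hm => norm_res_le h.bmp (h.mcA _) hm⟩, e⟩

theorem qb_wd (hw : ∀ t ∈ w, LK I k t) (hs : QB F p s) :
    QB F p (wd (sv F A) s w) ∧ VW (vH _ F A p) s w (wd (sv F A) s w) := vw_wd hs (qb_sv h) w hw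

theorem sv_fb (hγ : SBd I γ) : sv F A t (fun z => fb X (γ z)) = fun z => fb X (sv F A t γ z) := by
  cases t with
  | mul f => exact funext fun z => (map_smul (fb X) _ _).symm
  | G => exact res_eq h.bmp (h.mcA _) (isRes_fb h.mc.sm X (res_amp h.tame.choose_spec h.mc hγ).1)

theorem wd_fb (hγ : SBd I γ) : ∀ {w : List (La M)}, (∀ t ∈ w, LK I k t) →
    wd (sv F A) (fun z => fb X (γ z)) w = fun z => fb X (wd (sv F A) γ w z)
  | [], _ => rfl
  | t :: w, hw => by
    have hw' : ∀ t ∈ w, LK I k t := fun t ht => hw t (List.mem_cons_of_mem _ ht)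
    rw [Wrd81.wd_cons, wd_fb hγ hw', sv_fb h (sbd_wd hw' hγ), Wrd81.wd_cons]

theorem sv_le (hk : 1 ≤ k) (ht : LK I k t) (hs : ∀ x, ‖s x‖ ≤ T) (x : M) :
    ‖sv F A t s x‖ ≤ k * T :=
  (sl_le h.bmp (h.mcA _) hk (by
    cases t with
    | mul f => exact le_mul ht.2
    | G => trivial) hs x).1

theorem wd_le' (hk : 1 ≤ k) (hs : ∀ x, ‖s x‖ ≤ T) (hw : ∀ t ∈ w, LK I k t) (hn : w.length ≤ n)
    (x : M) : ‖wd (sv F A) s w x‖ ≤ k ^ n * T := by
  rw [← wd_sv]
  refine WL.wd ⟨by simpa using hn, fun t ht => ?_⟩ h.bmp (h.mcA _) hk hs x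
  obtain ⟨t, h1, rfl⟩ := List.mem_map.1 ht
  cases t with
  | mul f => exact le_mul (hw _ h1).2
  | G => trivial

theorem exists_wO (hG : JO F G (F.res A)) (g2 : ‖G‖ ≤ 2) (hk : 2 ≤ k) : ∀ {w : List (La M)},
    (∀ t ∈ w, LK I k t) → ∃ W : KK F.toPre κ →L[ℝ] KK F.toPre κ, ‖W‖ ≤ k ^ w.length ∧
      ∀ (X : KK F.toPre κ →L[ℝ] KK F.toPre κ) α, FJ F X α → FJ F (W ∘L X) (wd (sv F A) α w)
  | [], _ => ⟨.id ℝ _, ContinuousLinearMap.norm_id_le.trans_eq (pow_zero k).symm, fun _ _ a => a⟩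
  | t :: w, hw => by
    obtain ⟨W, a, b⟩ := exists_wO hG g2 hk fun t ht => hw t (List.mem_cons_of_mem _ ht)
    have ht := hw t List.mem_cons_self
    have m : ∀ V : KK F.toPre κ →L[ℝ] KK F.toPre κ, ‖V‖ ≤ k → ‖V ∘L W‖ ≤ k ^ (t :: w).length :=
      fun V hV => (V.opNorm_comp_le W).trans (by rw [List.length_cons, pow_succ']; gcongr)
    cases t with
    | mul f =>
      refine ⟨_, m _ (jo_mul (sbd_one ht.sbd).1 (by linarith) fun x => le_mul (V := Eu κ) ht.2 x).1,
        fun X α c => ?_⟩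
      have := (b X α c).op (sbd_one ht.sbd)
      simp only [amp_smul_one] at this
      exact this
    | G => exact ⟨_, m G (g2.trans hk), fun X α c => (b X α c).res h.tame.choose_spec h.mc hG⟩

theorem fj_x (hG : JO F G (F.res A)) (hf : SBd I f) (hf' : SBd I f') (a : FJ F X α)
    (q : QB F p α) : FJ F (xJ F p G f f' ∘L X) (wd (sv F A) α (xw f f')) := by
  have := (((a.op h.sbd).op (sbd_one hf')).res h.tame.choose_spec h.mc hG).op (sbd_one hf)
  simp only [amp_smul_one, q.2] at this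
  exact this

omit h in
variable (F A) in
/-- the transported test fields are strong -/
def SG (R : ℝ) (e : M → VV F.toPre κ) : List (La M) → (M → VV F.toPre κ) → Prop
  | [], _ => True
  | .mul f :: w, l => SG R e w (sv F A (.mul f) l)
  | .G :: w, l => St (LJ F) R e (sv F A .G l) ∧ SG R e w (sv F A .G l)

theorem vG_of {ρ : CL U (En κ)} (hs : QB F p s) : ∀ {w : List (La M)} {l : M → VV F.toPre κ},
    (∀ t ∈ w, LK I k t) → QB F p l → SG F A R e w l →
      vG F A p (LJ F) ρ R e s w l (gc F (aA _ A) (hr _ ρ) s (w.map (laV _)) l)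
  | [], _, _, _, _ => rfl
  | .mul f :: w, l, hw, hl, g => by
    rw [List.map_cons, laV, gc, ← laV, slT_laV]
    exact vG_of hs (fun t ht => hw t (List.mem_cons_of_mem _ ht))
      (qb_sv h _ _ (hw _ List.mem_cons_self) hl).1 g
  | .G :: w, l, hw, hl, g => by
    have hw' : ∀ t ∈ w, LK I k t := fun t ht => hw t (List.mem_cons_of_mem _ ht)
    have a := qb_wd h hw' hs
    have b := qb_sv (k := k) h .G _ trivial hl
    exact ⟨_, _, _, _, a.2, (qb_sv (k := k) h .G _ trivial a.1).2, b.2, g.1, vG_of hs hw' b.1 g.2, by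
      rw [← wd_sv]; rfl⟩

theorem sg_fb (he : FJ F X e) (hk : 1 ≤ k) : ∀ {w : List (La M)} {γ : M → VV F.toPre κ} {T : ℝ},
    (∀ t ∈ w, LK I k t) → SBd I γ → 0 ≤ T → (∀ z, ‖γ z‖ ≤ T) → k ^ w.length * T ≤ R →
      SG F A R e w fun z => fb X (γ z)
  | [], _, _, _, _, _, _, _ => trivial
  | t :: w, γ, T, hw, a, T0, b, c => by
    have ht := hw t List.mem_cons_self
    have hb := sv_le h hk ht b
    have k := sg_fb he hk (fun t ht => hw t (List.mem_cons_of_mem _ ht)) (sbd_sv (A := A) ht a)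
      (by positivity) hb (by rwa [← mul_assoc, ← pow_succ])
    rw [← sv_fb h a] at k
    cases t with
    | mul f => exact k
    | G => exact ⟨he.st (congrFun (sv_fb h a)) fun z => (hb z).trans (le_trans
        (mul_le_mul_of_nonneg_right (le_self_pow₀ hk (by simp)) T0) c), k⟩

end

variable (F A p) in
/-- the two base fields with their operators -/
structure BJ (f f' : M → ℝ) (k : ℝ) (G : KK F.toPre κ →L[ℝ] KK F.toPre κ) : Prop where
  pq : Pq F A p
  jo : JO F G (F.res A)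
  sy : adjoint G = G
  g2 : ‖G‖ ≤ 2
  two : 2 ≤ k
  l : LK I k (.mul f)
  l' : LK I k (.mul f')
  j : FJ F (xJ F p G f f') (bs F A p f f')
  j' : FJ F (xJ F p G f' f) (bs F A p f' f)
  q : QB F p (bs F A p f f')
  q' : QB F p (bs F A p f' f)
  n : ∀ x, ‖bs F A p f f' x‖ ≤ k
  n' : ∀ x, ‖bs F A p f' f x‖ ≤ k

namespace BJ
variable (h : BJ F A p f f' k G)
include h

theorem symm : BJ F A p f' f k G :=
  ⟨h.pq, h.jo, h.sy, h.g2, h.two, h.l', h.l, h.j', h.j, h.q', h.q, h.n', h.n⟩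

theorem one : 1 ≤ k := one_le_two.trans h.two

theorem adj : adjoint (xJ F p G f' f) = xJ F p G f f' :=
  adj_xJ h.pq h.sy h.l.sbd h.l'.sbd (h.j.fix h.pq h.q.2) (h.j'.fix h.pq h.q'.2)

theorem lk (hw : ∀ t ∈ w, LK I k t) : ∀ t ∈ w ++ xw f f', LK I k t := fun t ht =>
  (List.mem_append.1 ht).elim (hw t) (lk_xw h.l h.l' t)

theorem wd_eq (hw : ∀ t ∈ w, LK I k t) : wd (sv F A) (bs F A p f' f) (w ++ xw f f') =
    fun z => fb (xJ F p G f f') (wd (sv F A) (bs F A p f f') w z) := by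
  rw [Wrd81.wd_append, (fj_x h.pq h.jo h.l.sbd h.l'.sbd h.j' h.q').unique (h.j.right _), h.adj,
    wd_fb h.pq h.q.1 hw]

theorem st (hw : ∀ t ∈ w, LK I k t) (hn : w.length ≤ n) (hR : k ^ n * k ≤ R) :
    St (LJ F) R (bs F A p f f') (wd (sv F A) (bs F A p f' f) (w ++ xw f f')) :=
  h.j.st (congrFun (h.wd_eq hw)) fun z => (wd_le' h.pq h.one h.n hw hn z).trans hR

theorem vgh {ρ : CL U (En κ)} (hw : ∀ t ∈ w, LK I k t) (hn : w.length ≤ n)
    (hw' : ∀ t ∈ w', LK I k t) (hn' : w'.length ≤ n) (hL : Sm I L) (T0 : 0 ≤ T) (bL : ∀ x, ‖L x‖ ≤ T)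
    (pL : ∀ x, p x * (L x * p x) = L x * p x) :
    vgh F A p (LJ F) ρ (k ^ (n + 3) * (T * (k ^ n * k))) f f' (bs F A p f f') (bs F A p f' f) w w' L
      (wd (sv F A) (bs F A p f' f) (w' ++ xw f f')) fun x =>
      gc F (aA _ A) (hr _ ρ) (bs F A p f' f) ((w ++ xw f f').map (laV _)) (fun x => amp _ (L x)
        (wd (sl F (aA _ A)) (bs F A p f' f) ((w' ++ xw f f').map (laV _)) x)) x +
      gc F (aA _ A) (hr _ ρ) (bs F A p f f') ((xw f' f).map (laV _))
        (bk F (aA _ A) ((w ++ xw f f').map (laV _)) fun x => amp _ (L x)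
          (wd (sl F (aA _ A)) (bs F A p f f') (w'.map (laV _)) x)) x := by
  have k1 := h.one
  have sL : SBd I L := ⟨hL, T, bL⟩
  have qL : ∀ {α}, QB F p α → QB F p fun x => amp _ (L x) (α x) := fun q => ⟨sbd_amp sL q.1,
    fun x => by beta_reduce; rw [← q.2 x, amp_amp, amp_amp, amp_amp, mul_assoc, pL]⟩
  have u := qb_wd h.pq hw' h.q
  have hr : ∀ t ∈ w.reverse, LK I k t := fun t ht => hw t (List.mem_reverse.1 ht)
  have hr' : ∀ t ∈ (w ++ xw f f').reverse, LK I k t := fun t ht => h.lk hw t (List.mem_reverse.1 ht)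
  have m := qb_wd h.pq hr' (qL u.1)
  simp only [bk_laV, wd_sv]
  refine ⟨_, _, _, _, vG_of h.pq h.q' (h.lk hw) (qL (qb_wd h.pq (h.lk hw') h.q').1) ?_, u.2, m.2,
    vG_of h.pq h.q (lk_xw h.l' h.l) m.1 ⟨?_, trivial⟩, rfl⟩
  · simp only [h.wd_eq hw', ← fb_amp]
    refine sg_fb h.pq h.j k1 (h.lk hw) (qL u.1).1 (by positivity) (fun z => (norm_amp _ _).trans
      (mul_le_mul (bL z) (wd_le' h.pq k1 h.n hw' hn' z) (norm_nonneg _) T0)) ?_
    gcongr
    simpa [xw] using hn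
  obtain ⟨W, a1, a2⟩ := exists_wO h.pq h.jo h.g2 h.two hr
  obtain ⟨W', b1, b2⟩ := exists_wO h.pq h.jo h.g2 h.two hw'
  have e := (fj_x h.pq h.jo h.l'.sbd h.l.sbd (a2 _ _ ((b2 _ _ h.j).op sL))
    (qb_wd h.pq hr (qL u.1)).1).unique (h.j'.right _)
  rw [List.reverse_append, Wrd81.wd_append, show (xw f f').reverse = xw f' f from rfl, e,
    sv_fb h.pq h.q'.1, sv_fb h.pq (sbd_sv h.l' h.q'.1)]
  refine h.j'.st (γ := fun z => fb (adjoint (W ∘L mO F.toPre L ∘L W')) _) (fun z => by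
    rw [fb_fb, ← h.symm.adj, ← ContinuousLinearMap.adjoint_comp]; rfl) fun z =>
      (norm_fb_le _ _).trans ?_
  have c1 : ‖W ∘L mO F.toPre L ∘L W'‖ ≤ k ^ n * (T * k ^ n) :=
    (W.opNorm_comp_le _).trans (mul_le_mul (a1.trans (pow_le_pow_right₀ k1 (by simpa using hn)))
      ((ContinuousLinearMap.opNorm_comp_le _ _).trans (mul_le_mul (jo_mul hL T0 bL).1
        (b1.trans (pow_le_pow_right₀ k1 hn')) (norm_nonneg _) T0)) (norm_nonneg _) (by positivity))
  rw [LinearIsometryEquiv.norm_map]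
  refine (mul_le_mul c1 (sv_le (t := .G) h.pq k1 trivial (sv_le h.pq k1 h.l' h.n') z) (norm_nonneg _)
    (by positivity)).trans (le_trans (le_of_eq (by ring)) (le_mul_of_one_le_right (by positivity) k1 :
      k ^ (n + 3) * (T * k ^ n) ≤ _) |>.trans_eq (by ring))

end BJ

variable (F) in
/-- quantitative hypotheses on the data of a seed -/
structure Un (d : Cy M) (φ : M → ℝ) (S : ℝ) (n : ℕ) : Prop where
  l4 : L4 F.toPre S
  pos : 0 < S
  one : 1 ≤ n
  cu : Cu F n φ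
  sep : ∀ x, d.f x ≠ 0 → 1 ≤ φ x
  sep' : ∀ x, d.f' x ≠ 0 → φ x ≤ 0
  f : LK I n (.mul d.f)
  f' : LK I n (.mul d.f')
  w : d.w.length ≤ n ∧ ∀ t ∈ d.w, LK I n t
  w' : d.w'.length ≤ n ∧ ∀ t ∈ d.w', LK I n t

theorem vj_lit : VJ F p (LJ F) := fun u a b _ =>
  ⟨_, lj_toH ⟨u, a, b, fun _ => rfl⟩, fun _ _ k => is_inner k.2 _⟩

theorem bf_lit (h : Pq F A p) (hG : JO F G (F.res A)) (hS : L4 F.toPre S) (S0 : 0 < S)
    (n1 : (1 : ℝ) ≤ n) (hφ : Cu F n φ) (hf : LK I n (.mul f)) (hf' : LK I n (.mul f'))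
    (h1 : ∀ x, f x ≠ 0 → 1 ≤ φ x) (h0 : ∀ x, f' x ≠ 0 → φ x ≤ 0) (hR : kB S n ≤ R) :
    BF F A p (LJ F) f f' φ R (bs F A p f f') ∧ FJ F (xJ F p G f f') (bs F A p f f') ∧
      QB F p (bs F A p f f') ∧ ∀ x, ‖bs F A p f f' x‖ ≤ kB S n := by
  have n0 : (0 : ℝ) < n := by linarith
  have k := isFld_bs h hφ n0 hf.1 hf'.sbd h1 h0
  have k' := isFld_cf h hφ n0 hf'.sbd h0
  have b := h.bs_kB hS S0 ⟨n1, hf.1.continuous, hf'.1.continuous, hf.2, hf'.2, φ, hφ, h1, h0⟩
  have j := fj_bs h hG hf.sbd hf'.sbd k.1 ⟨_, b⟩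
  refine ⟨⟨⟨_, k'.1, fun z => le_trans ?_ hR, fix_bs h k', k.2, fun x hx => hom_bs h hf'.sbd k' ?_
    (by_contra fun e => by linarith [h0 x e])⟩, h1, fun g σ a => ⟨_, Abel74.rs_res h.tame h.mc
      (hf'.sbd.smul (h.sbd.app a.1)), h.fix fun x => by rw [map_smul, h.pp],
      congrFun ((j.lj g).eq (jo_xJ h hG hf.sbd hf'.sbd g σ a))⟩⟩, j, ⟨⟨k.1.1, _, b⟩, fix_bs h k.1⟩, b⟩
  · have m1 := one_le_mS
    have q := h.bs_le (f := cf 8 (3 / 4) φ) wu_one hS S0 (hφ.cf (k := 3) (by norm_num) 0)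
      (hφ.cf (k := 3) (by norm_num) (1 / 3)) (by positivity) (cf_abs _ _) (cf_abs _ _)
      (fun x hx => by_contra fun e => hx (cf_zero (by norm_num) (h0 x e)))
      (fun x hx => cf_one (by
        have : ¬φ x ≤ 1 / 3 := fun e => hx (cf_zero (by norm_num) e)
        linarith [not_le.1 this]))
      (fun x hx => cf_one (by
        have : ¬φ x ≤ 3 / 4 := fun e => hx (cf_zero (by norm_num) e)
        linarith [not_le.1 this])) hf'.1.continuous (m := n ^ 2)
      (fun x => by rw [mul_one]; exact sq_le_sq' (abs_le.1 (hf'.2 x)).1 (abs_le.1 (hf'.2 x)).2) z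
    have k0 := kL_nonneg (N := 2 * (mS * 3) ^ 2 * n) S0.le (by positivity)
    refine (Real.le_sqrt_of_sq_le (q.trans ?_)).trans (le_add_of_nonneg_left (by linarith))
    gcongr 3 * (?_ * _)
    have := abs_le.1 ((cf_abs 8 (3 / 4) z : |cf 8 (3 / 4) φ z| ≤ 1).trans n1)
    exact sq_le_sq' this.1 this.2
  · filter_upwards [hφ.sm.continuous.continuousAt.eventually_const_lt hx] with y hy
    exact cf_one (by linarith)

theorem sbd_tp {V : Type} [NormedAddCommGroup V] [InnerProductSpace ℝ V] [CompleteSpace V]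
    (r : CL U (CL V V)) {a b : M → V} (ha : SBd I a) (hb : SBd I b) :
    SBd I fun x => tp r (a x) (b x) := ((SBd.const (tpL r)).app ha).app hb

/-- the constant of the literal values -/
def kR (S : ℝ) (n : ℕ) : ℝ := kB S n ^ (n + 3) * (2 * (kB S n ^ n * kB S n))

variable {lam : Type} [Fintype lam] {r : ℕ} {B : Base M ι lam} {Γ : Geo I M ι lam}
  {c : Cfg M ι lam r} {d : Cy M}

/-- **LIT** -/
theorem lit (hB : B.OK I) (hT : ∃ C, Γ.F.Tame C) (H : c.m.OK I B) (hc : c.m.IsConn B Γ c.W)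
    (u : Un Γ.F d φ S n) : ∃ v : VC Γ.F c d φ (kR S n), v.s = (d.sed Γ.F).s c ∧ SBd I v.s ∧
      ∀ l, SBd I l → v.A l ((d.sed Γ.F).sA c l) := by
  have h := pq_conn hB hT H hc
  obtain ⟨G, g2, sy, jo⟩ := exists_G h.tame.choose_spec h.mc
  obtain ⟨k2, kn⟩ := le_kB (S := S) n.cast_nonneg
  have k1 := one_le_two.trans k2
  have n1 : (1 : ℝ) ≤ n := by exact_mod_cast u.one
  have r1 : kB S n ^ n * kB S n ≤ kR S n := (le_mul_of_one_le_left (by positivity)
    one_le_two).trans (le_mul_of_one_le_left (by positivity) (one_le_pow₀ k1))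
  have r0 : kB S n ≤ kR S n := (le_mul_of_one_le_left (by positivity) (one_le_pow₀ k1)).trans r1
  obtain ⟨a1, a2, a3, a4⟩ := bf_lit h jo u.l4 u.pos n1 u.cu u.f u.f' u.sep u.sep' r0
  obtain ⟨b1, b2, b3, b4⟩ := bf_lit h jo u.l4 u.pos n1 u.cu.flip u.f' u.f
    (fun x hx => by linarith [u.sep' x hx]) (fun x hx => by linarith [u.sep x hx]) r0
  have j : BJ Γ.F _ _ d.f d.f' (kB S n) G :=
    ⟨h, jo, sy, g2, k2, u.f.mono kn, u.f'.mono kn, a2, b2, a3, b3, a4, b4⟩
  have hw := fun t ht => (u.w.2 t ht).mono kn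
  have hw' := fun t ht => (u.w'.2 t ht).mono kn
  have qa := qb_wd h (j.lk hw) b3
  have qb := qb_wd h (j.lk hw') b3
  let v : VC Γ.F c d φ (kR S n) := ⟨_, LJ Γ.F, _, _, _, _, vj_lit, a1, b1, qa.2, qb.2,
    j.st hw u.w.1 r1, j.st hw' u.w'.1 r1⟩
  refine ⟨v, funext fun x => ?_, ?_, fun l hl => ?_⟩
  · exact congrArg (c.m.pg x) (congrArg₂ (tp _) (congrFun wd_sv.symm x) (congrFun wd_sv.symm x))
  · have e := h.sbd.app (sbd_tp (hr _ (adR (Fin c.m.N))) qa.1.1 qb.1.1)
    exact e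
  obtain ⟨m, hm⟩ := hl.2
  have hb : ∀ x, ‖l x‖ ≤ ⨆ x, ‖l x‖ := le_ciSup ⟨m, by rintro _ ⟨x, rfl⟩; exact hm x⟩
  have T0 : 0 ≤ 2 * ⨆ x, ‖l x‖ := mul_nonneg zero_le_two (Real.iSup_nonneg fun _ => norm_nonneg _)
  have sL := ((SBd.const (adR (Fin c.m.N))).app (h.sbd.app hl)).1
  have bL : ∀ x, ‖adR (Fin c.m.N) (c.m.pg x (l x))‖ ≤ 2 * ⨆ x, ‖l x‖ := fun x => (norm_adR _).trans
    (mul_le_mul_of_nonneg_left ((h.norm_le _ _).trans (hb x)) zero_le_two)
  have e1 := j.vgh (ρ := adR _) hw' u.w'.1 hw u.w.1 sL T0 bL fun x => pg_adR x _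
  have e2 := j.vgh (ρ := adR _) hw u.w.1 hw' u.w'.1 sL T0 bL fun x => pg_adR x _
  refine ⟨_, _, _, fun L L0 hL => ?_, e1, e2, ?_⟩
  · rw [show kR S n * L = kB S n ^ (n + 3) * (2 * L * (kB S n ^ n * kB S n)) by rw [kR]; ring]
    gcongr
    exact Real.iSup_le hL L0
  · rfl

theorem exists_un {C : ℕ → ℝ} (hT : F.Tame C) (hd : d.OK F) :
    ∃ φ S n, F.Cb φ ∧ Un F d φ S n := by
  obtain ⟨a, b, φ, ⟨D, c⟩, s, s'⟩ := hd.sep
  have z : ∀ {f : M → ℝ}, F.Cb f → ∀ᶠ n : ℕ in atTop, LK I n (.mul f) := fun h =>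
    let ⟨m, hm⟩ := cb_bdd h
    (tendsto_natCast_atTop_atTop.eventually_ge_atTop m).mono fun _ hn =>
      ⟨cb_sm h, fun x => (hm x).trans hn⟩
  obtain ⟨n, h1, h2, h3, h4, h5, h6⟩ := ((eventually_ge_atTop 1).and
    ((tendsto_natCast_atTop_atTop.eventually_ge_atTop
      (Fintype.card ι * (D 2 ^ 2 + (1 + |C 0|) * |D 2|) : ℝ)).and ((z a).and ((z b).and
      ((exists_llsz hd.w).and (exists_llsz hd.w')))))).exists
  exact ⟨φ, |C 0| + 1, n, ⟨D, c⟩, (l4_of_tame hT).mono (by linarith [le_abs_self (C 0)]),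
    by positivity, h1, (cu_of_cbs hT c).mono h2, s, s', h3, h4,
    ⟨h5.1, fun t ht => lk_of (hd.w t ht) (h5.2 t ht)⟩,
    h6.1, fun t ht => lk_of (hd.w' t ht) (h6.2 t ht)⟩

end Crest.Agent.X212.Cyl12
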