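import Crest.Agent.X212.Cyl12.Pf
import Crest.Agent.X212.Cyl12.Lit

-- ▼ part X212/Cyl12/Tst
section

/-!
# Row 212, CYC-LIM (helper12): convergent sections at one limit, test sections
-/

set_option autoImplicit false
set_option linter.unusedSectionVars false
noncomputable section
open scoped Manifold ContDiff Topology InnerProductSpace
open MeasureTheory Set Function Filter

namespace Crest.Agent.X212.Cyl12
open An Dgr80 Cyc79 Cmp73 Eqv71
open Wz78 (nab lap SA pg_mem pg_of_mem)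

section alg
variable {κ : Type} [Fintype κ] [DecidableEq κ] {K : Type} [NormedAddCommGroup K]
  [InnerProductSpace ℝ K] [CompleteSpace K] {U : Type} [NormedAddCommGroup U]
  [InnerProductSpace ℝ U] [CompleteSpace U]

theorem tp_right (ρ : CL U (En κ)) (a b : Fm κ K) :
    tp (hr K ρ) a b = ∑ j, tp ρ (ct (b j) a) (EuclideanSpace.single j 1) :=
  ext_inner_right ℝ fun ξ => by
    rw [inner_tp, sum_inner, PiLp.inner_apply]
    refine Finset.sum_congr rfl fun j _ => ?_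
    rw [inner_tp, ← ct_amp, EuclideanSpace.inner_single_left]
    simp [hr_apply]

theorem tp_left (ρ : CL U (En κ)) (a b : Fm κ K) :
    tp (hr K ρ) a b = ∑ j, tp ρ (EuclideanSpace.single j 1) (ct (a j) b) :=
  ext_inner_right ℝ fun ξ => by
    rw [inner_tp, sum_inner, hr_apply, real_inner_comm,
      inner_amp fun v w => (ContinuousLinearMap.adjoint_inner_right (ρ ξ) v w).symm, PiLp.inner_apply]
    refine Finset.sum_congr rfl fun j _ => ?_
    rw [inner_tp, ← ContinuousLinearMap.adjoint_inner_left (ρ ξ), ← ct_amp,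
      EuclideanSpace.inner_single_right]
    simp

theorem am2_dot {κ' : Type} [Fintype κ'] [DecidableEq κ'] (S : CL (Eu κ) (Eu κ')) (a : Fm κ K)
    (j : κ') : am2 (ContinuousLinearMap.id ℝ K) S a j = dot a (trn S (EuclideanSpace.single j 1)) :=
  ext_inner_left ℝ fun h => by
    rw [inner_dot, inner_trn', ← ct_id, EuclideanSpace.inner_single_right]; simp

theorem dot_single (a : Fm κ K) (j : κ) : dot a (EuclideanSpace.single j 1) = a j :=
  ext_inner_left ℝ fun h => by rw [inner_dot, EuclideanSpace.inner_single_right]; simp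

variable {M M' ι lam : Type} [Fintype ι] [Fintype lam] {m : Md M ι lam} {m' : Md M' ι lam} {x : M}
  {x' : M'} {V : ι → ι → ℝ} {v : CL (Eu lam) (Eu lam)} {u : CL m.V m'.V} (e : ME m x m' x' V v u)
  {a : m.A} (ha : a ∈ m.gS x)
include e ha

theorem me_e : (∀ w, trn u (u (opL a w)) = opL a w) ∧ ∀ w, opL a (trn u (u w)) = opL a w := by
  refine ⟨fun w => (congrArg (fun T : En _ => T _) e.uu).trans
    (congrArg (fun T : En _ => T w) ha.2.1), fun w => ?_⟩
  have h2 := congrArg trn (show m.p x ∘L opL a = opL a from ha.2.1)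
  rw [trn_comp, trn_of_skw ha.1, ContinuousLinearMap.neg_comp, neg_inj, ← e.uu, trn_comp,
    trn_trn] at h2
  exact congrArg (fun T : En _ => T w) h2

theorem me_ad (ξ : m.A) : cj u (adR _ ξ a) = adR _ (cj u ξ) (cj u a) := by
  rw [adR_apply, adR_apply, Wz78.adc_apply, Wz78.adc_apply, cj_hsL]
  congr 1
  ext1 w
  simp only [opL_cj, ContinuousLinearMap.comp_apply, sub_apply, mul_apply_eq_comp, map_sub,
    (me_e e ha).1, (me_e e ha).2]

theorem me_rr (ξ : m'.A) : cj (trn u) (adR _ ξ (cj u a)) = adR _ (cj (trn u) ξ) a := by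
  rw [adR_apply, adR_apply, Wz78.adc_apply, Wz78.adc_apply, cj_hsL]
  congr 1
  ext1 w
  simp only [opL_cj, trn_trn, ContinuousLinearMap.comp_apply, sub_apply, mul_apply_eq_comp, map_sub,
    (me_e e ha).1, (me_e e ha).2]

omit ha in
theorem me_tp {a : Fm (Fin m.N × Fin m.N) K} (q : ∀ g, ct g a ∈ m.gS x) (b : Fm (Fin m.N × Fin m.N) K) :
    cj u (tp (hr K (adR _)) a b) = tp (hr K (adR _)) (am2 (ContinuousLinearMap.id ℝ K) (cj u) a)
      (am2 (ContinuousLinearMap.id ℝ K) (cj u) b) := ext_inner_right ℝ fun ξ => by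
  rw [inner_tp, inner_cj, inner_tp, ← ContinuousLinearMap.adjoint_inner_right, adj_am2]
  refine congrArg _ (ext_ct fun g => ?_)
  rw [ContinuousLinearMap.adjoint_id, ct_id, hr_apply, hr_apply, ct_amp, ct_amp, ct_id,
    show trn (cj u) = _ from adj_cj _, me_rr e (q g)]

end alg

variable {E : Type} [NormedAddCommGroup E] [NormedSpace ℝ E] [FiniteDimensional ℝ E]
  [MeasurableSpace E] [BorelSpace E]
  {HM : Type} [TopologicalSpace HM] {I : ModelWithCorners ℝ E HM} [I.Boundaryless]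
  {E₀ : Type} [NormedAddCommGroup E₀] [NormedSpace ℝ E₀] [FiniteDimensional ℝ E₀]
  [MeasurableSpace E₀] [BorelSpace E₀]
  {H₀ : Type} [TopologicalSpace H₀] {I₀ : ModelWithCorners ℝ E₀ H₀} [I₀.Boundaryless]
  {M : Type} [TopologicalSpace M] [ChartedSpace H₀ M] [IsManifold I₀ ∞ M] [MeasurableSpace M]
  [T2Space M] [BorelSpace M] [SecondCountableTopology M]
  {ι lam : Type} [Fintype ι] [Fintype lam] {α : Type}
  {X : α → Type} [∀ n, TopologicalSpace (X n)] [∀ n, ChartedSpace HM (X n)]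
  [∀ n, IsManifold I ∞ (X n)] [∀ n, MeasurableSpace (X n)] [∀ n, T2Space (X n)]
  [∀ n, BorelSpace (X n)] [∀ n, SecondCountableTopology (X n)] {r : ℕ}
  {g : Gs I I₀ M ι lam X} {c : ∀ n, Cfg (X n) ι lam r} {b : Cfg M ι lam r}
  {u : ∀ n, M → CL (c n).m.V b.m.V}

variable (g c b u) in
/-- limits of sections -/
abbrev L1 (s : ∀ n, X n → (c n).m.A) (s' : M → b.m.A) : Prop := g.LA c b (g.S c) u s s'

variable (g c b u) in
/-- convergent sections of `g` at one limit -/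
structure Q1 (s : ∀ n, X n → (c n).m.A) (s' : M → b.m.A) : Prop where
  pf : ∀ x, g.Pf c x (WA c) s
  p : ∀ n x, s n x ∈ (c n).m.gS x
  bd : g.UB s
  la : L1 g c b u s s'

variable (k : g.Bk c) (l : g.LB c b u) {s t : ∀ n, X n → (c n).m.A} {s' t' : M → b.m.A}

theorem L1.congr (h : L1 g c b u s s') (e : ∀ n x, t n x = s n x) (e' : ∀ x, t' x = s' x) :
    L1 g c b u t t' := by
  rwa [show t = s from funext fun n => funext (e n), funext e']

theorem L1.sub (h : L1 g c b u s s') (h' : L1 g c b u t t') :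
    L1 g c b u (fun n x => s n x - t n x) fun x => s' x - t' x :=
  ⟨h.sm.sub h'.sm, (h.cv.sub h'.cv).congr (fun _ _ => .of_forall fun _ => map_sub ..) fun _ _ => rfl⟩

include k l

theorem nr {x : M} (hx : x ∉ g.S c) : ∀ᶠ q in (g.l : Filter α) ×ˢ 𝓝 x, g.Nr c b u q.1 q.2 :=
  l.lim.nr k.ok k.adm hx

theorem la_of_pt {σ} (pf : ∀ x, PF (g.fb c (g.F g.Pᶜ x)) (g.bs c) σ (WA c) t) (sm : Sm I₀ t')
    (h : ∀ z ∉ g.S c, Tendsto (fun n => cj (u n z) (t n (g.ψ n z))) g.l (𝓝 (t' z))) :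
    L1 g c b u t t' :=
  let ⟨_, a⟩ := k.core.A l.hyp b u l.lim _ t pf; ⟨sm, a.cv.mb, h⟩

theorem L1.pg (h : L1 g c b u s s') :
    L1 g c b u (fun n x => (c n).m.pg x (s n x)) fun x => b.m.pg x (s' x) :=
  have spg := Std94.sm_pg k.ok.B₀ l.lim.adm.ok
  ⟨spg.clm_apply h.sm, ((Cv.fixed' spg).app h.cv).congr (fun _ hx => (nr k l hx).mono fun _ hq =>
    (hq.me.pg hq.be (k.ok.B _) k.ok.B₀ (k.adm _).ok l.lim.adm.ok _).symm) fun _ _ => rfl⟩

theorem L1.mem (h : L1 g c b u s s') (p : ∀ n x, s n x ∈ (c n).m.gS x) (x : M) : s' x ∈ b.m.gS x := by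
  rw [h.unique l.lim k.ok ((h.pg k l).congr (fun n x => (pg_of_mem (p n x)).symm) fun _ => rfl)]
  exact pg_mem ..

theorem L1.ad (h : L1 g c b u s s') (h' : L1 g c b u t t') (p : ∀ n x, t n x ∈ (c n).m.gS x) :
    L1 g c b u (fun n x => adR _ (s n x) (t n x)) fun x => adR _ (s' x) (t' x) :=
  ⟨((adR (Fin b.m.N)).contDiff.contMDiff.comp h.sm).clm_apply h'.sm, (h.cv.bil (adR _) h'.cv).congr
    (fun _ hx => (nr k l hx).mono fun _ hq => me_ad hq.me (p _ _) _) fun _ _ => rfl⟩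

theorem Q1.sb (h : Q1 g c b u s s') : ∃ C, ∀ x, ‖s' x‖ ≤ C :=
  h.bd.imp fun _ => h.la.le l.lim k.ok k.adm h.p

theorem la_res (pf : ∀ x, g.Pf c x (WA c) t) (sm : ∀ n, Sm I (t n)) (p : ∀ n x, t n x ∈ (c n).m.gS x)
    (bd : g.UB t) (e : ∀ n x, t n x + lap I (g.G n).F.e (g.G n).F.dv (WA c n) (t n) x = s n x)
    (h : L1 g c b u s s') (h' : g.G₀.F.IsRes (b.m.adW b.W) s' t') : L1 g c b u t t' := by
  obtain ⟨t₁, ht⟩ := k.core.A l.hyp b u l.lim _ t pf
  obtain ⟨C, hC⟩ := bd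
  rwa [Mp86.isRes_unique (Mp86.bumps_of_tame _ k.tame.choose_spec) (Mp86.mc_adW l.lim.adm.conn) h'
    ⟨ht.sm, ⟨C, ht.le l.lim k.ok k.adm p hC⟩, Gs.QA.lim_res k l h ht sm e⟩]

theorem Q1.res (h : Q1 g c b u s s') (e : ∀ n, Rs (g.G n).F (WA c n) (s n) (t n))
    (p : ∀ n x, t n x ∈ (c n).m.gS x) (e' : Rs g.G₀.F (b.m.adW b.W) s' t') : L1 g c b u t t' :=
  have bd : g.UB t := h.bd.imp fun C hC => hC.mono fun n hn => (e n).le C hn
  have sm := fun n => (e n).sm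
  la_res k l (fun x => have a := k.gx x
    (PF.res (g := fun n => (g.G n).F.dv) a.gb.c a.gb.dv a.kA sm (bd.bd _ x)
      (fun _ _ _ => a.crv_A Sy.Le.rfl sm p) (fun n => (e n).eq) (h.pf x).pL).wP) sm p bd
    (fun n => (e n).eq) h.la ⟨e'.sm, (h.sb k l).imp e'.le, e'.eq⟩

/-- convergent sections are controlled off the exceptional set -/
theorem L1.pf (h : L1 g c b u s s') (sm : ∀ n, Sm I (s n)) (p : ∀ n x, s n x ∈ (c n).m.gS x) {x : M}
    (hx : x ∉ g.S c) : g.Pf c x (WA c) s := by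
  have a := k.gx x
  refine Fb.CB.pf ⟨a.sA, sm, fun v => ?_⟩
  induction v generalizing s s' with
  | nil =>
    obtain ⟨C, hC⟩ := (h.cv.mb 0 x hx).bdd
    exact B0.bdd (C := C) (eventually_map.2 (nF_le ((hC.and (nr k l hx)).mono fun q hq =>
      (hq.2.norm_cj l.lim k.ok k.adm (p _ _)).ge.trans hq.1)))
  | cons i v ih =>
    have e := ih (h.nab l.lim k.ok k.adm sm i)
      (fun n => sm_nab (Wz78.frm (g.G n).F).se (a.sA n) (sm n) i)
      fun n y => Wz78.nab_mem_g (a.ok n) (a.cn n) i (sm n y) (p n)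
    exact e

variable {T : Set M} (hT : IsCompact T) (hS : T ⊆ (g.S c)ᶜ) (t0 : ∀ x ∉ T, t' x = 0)
include hT hS t0

/-- **test sections** -/
theorem exists_tst (sm : Sm I₀ t') (p : ∀ x, t' x ∈ b.m.gS x) : ∃ t, Q1 g c b u t t' ∧
    ∀ n, Sm I (t n) ∧ HasCompactSupport (t n) ∧ ∀ x ∉ g.ψ n '' T, t n x = 0 := by
  classical
  let G : α → Prop := fun n => ∀ y ∈ T, g.Nr c b u n y
  have hG : ∀ᶠ n in (g.l : Filter α), G n := ev_compact hT fun y hy => nr k l (hS hy)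
  let t : ∀ n, X n → (c n).m.A := fun n => if G n then (g.ψ n '' T).indicator fun x =>
    cj (trn (u n ((g.ψ n).symm x))) (t' ((g.ψ n).symm x)) else 0
  have h0 : ∀ n, ∀ x ∉ g.ψ n '' T, t n x = 0 := fun n x hx => by
    by_cases h : G n <;> simp only [t, h, if_true, if_false, indicator_of_notMem hx, Pi.zero_apply]
  have h1 : ∀ n, G n → ∀ z ∈ (g.ψ n).source, t n (g.ψ n z) = cj (trn (u n z)) (t' z) := fun n h z hz => by
    by_cases hz' : z ∈ T
    · simp only [t, h, if_true, indicator_of_mem (mem_image_of_mem _ hz'), (g.ψ n).left_inv hz]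
    · rw [t0 z hz', map_zero, h0]
      rintro ⟨y, hy, e⟩
      exact hz' ((g.ψ n).injOn (h y hy).src hz e ▸ hy)
  have cK : ∀ n, G n → IsCompact (g.ψ n '' T) := fun n h =>
    hT.image_of_continuousOn ((g.ψ n).continuousOn.mono fun y hy => (h y hy).src)
  have z : ∀ n, G n → ∀ x ∉ g.ψ n '' T, t n =ᶠ[𝓝 x] fun _ => 0 := fun n h x hx =>
    ((cK n h).isClosed.isOpen_compl.eventually_mem hx).mono (h0 n)
  have cs : ∀ {P : ∀ n, X n → (c n).m.A → Prop}, (∀ n x, P n x 0) →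
      (∀ n y, g.Nr c b u n y → P n (g.ψ n y) (cj (trn (u n y)) (t' y))) → ∀ n x, P n x (t n x) := by
    intro P a1 a2 n x
    by_cases h : G n
    · by_cases hx : x ∈ g.ψ n '' T
      · obtain ⟨y, hy, rfl⟩ := hx
        exact h1 n h y (h y hy).src ▸ a2 n y (h y hy)
      · exact h0 n x hx ▸ a1 n x
    · simpa only [t, h, if_false, Pi.zero_apply] using a1 n x
  have me := fun {n y} (q : g.Nr c b u n y) => q.me.symm q.be (k.adm n).ok l.lim.adm.ok
  have m : ∀ n x, t n x ∈ (c n).m.gS x := cs (P := fun n x v => v ∈ (c n).m.gS x)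
    (fun _ _ => zero_mem _) fun n y q =>
      (me q).cj_mem (q.be.symm (k.ok.B n) k.ok.B₀) l.lim.adm.ok (k.adm n).ok (p y)
  have st : ∀ n, Sm I (t n) := fun n x => by
    by_cases h : G n
    · by_cases hx : x ∈ g.ψ n '' T
      · obtain ⟨y, hy, rfl⟩ := hx
        exact Cyl58.contMDiffAt_of_comp ((k.ok.rel n).ld y (h y hy).src)
          (((sa_cj (sa_trn (h y hy).su)).app (sm y)).congr_of_eventuallyEq
            (((g.ψ n).open_source.eventually_mem (h y hy).src).mono (h1 n h)))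
      · exact contMDiffAt_const.congr_of_eventuallyEq (z n h x hx)
    · simp only [t, h, if_false]; exact contMDiffAt_const
  have la : L1 g c b u t t' := ⟨sm, (Cv.fixed' sm).congr (fun y hy =>
    ((nr k l hy).and (hG.prod_inl _)).mono fun q hq => by
      simpa only [h1 _ hq.2 _ hq.1.src, trn_trn] using (me hq.1).trn_cj (p _)) fun _ _ => rfl⟩
  obtain ⟨C, hC⟩ := sm.continuous.bounded_above_of_compact_support (.intro hT t0)
  refine ⟨t, ⟨fun x => ?_, m, .cst (C := max C 0) (cs (P := fun _ _ v => ‖v‖ ≤ max C 0)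
    (fun _ _ => by simp) fun n y q => le_max_of_le_left (le_trans ?_ (hC y))), la⟩,
    fun n => ⟨st n, ?_, h0 n⟩⟩
  · by_cases hx : x ∈ T
    · exact la.pf k l st m (hS hx)
    refine (PF.zero (k.gx x).sA).congr_ev st (eventually_map.2 (ev_nF.2
      ((((hT.isClosed.isOpen_compl.eventually_mem hx).filter_mono nhdsWithin_le_nhds).and
        self_mem_nhdsWithin).mono fun y hy => (((k.ok.src y hy.2).and (hG.prod_mk
          (hT.isClosed.isOpen_compl.eventually_mem hy.1))).mono fun q hq => z _ hq.2.1 _ ?_))))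
    rintro ⟨w, hw, e⟩
    exact hq.2.2 ((g.ψ _).injOn (hq.2.1 w hw).src hq.1 e ▸ hw)
  · rw [norm_eq_sqrt_real_inner, (me q).inner_cj _ (p y), ← norm_eq_sqrt_real_inner]
  · by_cases h : G n
    · exact .intro (cK n h) (h0 n)
    · simpa only [t, h, if_false] using HasCompactSupport.zero

theorem int_tst (ht : Q1 g c b u t t') (h0 : ∀ n, ∀ x ∉ g.ψ n '' T, t n x = 0) (hs : Q1 g c b u s s')
    (x₀ : M) : Tendsto (fun n => ∫ x, ⟪t n x, s n x⟫_ℝ ∂(g.G n).F.μ) g.l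
      (𝓝 (∫ x, ⟪t' x, s' x⟫_ℝ ∂g.G₀.F.μ)) := by
  obtain ⟨C, hC⟩ := ht.bd.mul hs.bd (u := fun n x => ((⟪t n x, s n x⟫_ℝ : ℝ) : ℂ)) fun n x => by
    rw [Complex.norm_real]; exact norm_inner_le_norm _ _
  have := k.int _ l.lim.P l.lim.fin (fun n x => ((⟪t n x, s n x⟫_ℝ : ℝ) : ℂ))
    (fun x => ((⟪t' x, s' x⟫_ℝ : ℝ) : ℂ)) T C hT (hS.trans Gs.sub_S)
    (fun n => Complex.continuous_ofReal.comp (((ht.pf x₀).sm n).continuous.inner
      ((hs.pf x₀).sm n).continuous))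
    (Complex.continuous_ofReal.comp (ht.la.sm.continuous.inner hs.la.sm.continuous))
    (((ht.la.cv.bil (innerSL ℝ) hs.la.cv).clm Complex.ofRealCLM).congr (fun _ hy => (nr k l hy).mono
      fun _ hq => congrArg _ (hq.me.inner_cj _ (hs.p _ _)).symm) fun _ _ => rfl)
    (fun x hx => by simp [t0 x hx]) (hC.mono fun n hn => ⟨hn, fun x hx => by simp [h0 n x hx]⟩)
  simp only [integral_complex_ofReal] at this
  exact (Complex.continuous_re.tendsto _).comp this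

omit hT hS t0 in
/-- test sections separate sections of `g` -/
theorem eq_of_tst (h1 : Sm I₀ s') (h2 : Sm I₀ t') (p1 : ∀ x, s' x ∈ b.m.gS x) (p2 : ∀ x, t' x ∈ b.m.gS x)
    (h : ∀ (w : M → b.m.A) T, IsCompact T → T ⊆ (g.S c)ᶜ → (∀ x ∉ T, w x = 0) → Sm I₀ w →
      (∀ x, w x ∈ b.m.gS x) → ∫ x, ⟪w x, s' x⟫_ℝ ∂g.G₀.F.μ = ∫ x, ⟪w x, t' x⟫_ℝ ∂g.G₀.F.μ) :
    s' = t' := l.lim.ext k.ok h1.continuous h2.continuous fun x hx => by
  have := Manifold.locallyCompact_of_finiteDimensional (M := M) I₀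
  have := Sob92.openPos g.G₀.F.toPre
  obtain ⟨T, hT, a1, a2⟩ := exists_compact_subset l.lim.op hx
  obtain ⟨η, b1, -, b3, b4, b5⟩ := exists_bump (I := I₀) (mem_interior_iff_mem_nhds.1 a1)
  have w0 : ∀ y ∉ T, η y • (s' y - t' y) = 0 := fun y hy => by
    rw [show η y = 0 from by_contra fun e => hy (b4 y e), zero_smul]
  have sw := b1.smul (h1.sub h2)
  have i : ∀ {v : M → b.m.A}, Sm I₀ v → Continuous (fun y => ⟪η y • (s' y - t' y), v y⟫_ℝ) ∧
      HasCompactSupport fun y => ⟪η y • (s' y - t' y), v y⟫_ℝ := fun hv =>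
    ⟨sw.continuous.inner hv.continuous, .intro hT fun y hy => by rw [w0 y hy, inner_zero_left]⟩
  have e := sub_eq_zero.2 (h _ T hT a2 w0 sw fun y => Submodule.smul_mem _ _ (sub_mem (p1 y) (p2 y)))
  rw [← integral_sub ((i h1).1.integrable_of_hasCompactSupport (i h1).2)
    ((i h2).1.integrable_of_hasCompactSupport (i h2).2)] at e
  simp only [← inner_sub_right] at e
  by_contra ne
  refine ((i (h1.sub h2)).1.integral_pos_of_hasCompactSupport_nonneg_nonzero (x := x) (i (h1.sub h2)).2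
    (fun y => ?_) ?_).ne' e
  · rw [real_inner_smul_left]; exact mul_nonneg (b3 y).1 real_inner_self_nonneg
  · rw [b5.self_of_nhds, one_smul]; exact inner_self_ne_zero.2 (sub_ne_zero.2 ne)

end Crest.Agent.X212.Cyl12
end
end

-- ▼ part X212/Cyl12/Lim

/-!
# Row 212, CYC-LIM (helper12): values of cyclic seeds converge
-/

set_option autoImplicit false
set_option linter.unusedSectionVars false
noncomputable section
open scoped Manifold ContDiff Topology InnerProductSpace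
open MeasureTheory Set Function Filter

namespace Crest.Agent.X212.Cyl12
open An Dgr80 Cyc79 Cmp73 Eqv71
open Wz78 (nab lap SA pg_mem pg_of_mem)
open Abel74 (SBd)

variable {E : Type} [NormedAddCommGroup E] [NormedSpace ℝ E] [FiniteDimensional ℝ E]
  [MeasurableSpace E] [BorelSpace E]
  {HM : Type} [TopologicalSpace HM] {I : ModelWithCorners ℝ E HM} [I.Boundaryless]
  {E₀ : Type} [NormedAddCommGroup E₀] [NormedSpace ℝ E₀] [FiniteDimensional ℝ E₀]
  [MeasurableSpace E₀] [BorelSpace E₀]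
  {H₀ : Type} [TopologicalSpace H₀] {I₀ : ModelWithCorners ℝ E₀ H₀} [I₀.Boundaryless]
  {M : Type} [TopologicalSpace M] [ChartedSpace H₀ M] [IsManifold I₀ ∞ M] [MeasurableSpace M]
  [T2Space M] [BorelSpace M] [SecondCountableTopology M]
  {ι lam : Type} [Fintype ι] [Fintype lam] {α : Type}
  {X : α → Type} [∀ n, TopologicalSpace (X n)] [∀ n, ChartedSpace HM (X n)]
  [∀ n, IsManifold I ∞ (X n)] [∀ n, MeasurableSpace (X n)] [∀ n, T2Space (X n)]
  [∀ n, BorelSpace (X n)] [∀ n, SecondCountableTopology (X n)] {r : ℕ}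
  {g : Gs I I₀ M ι lam X} {c : ∀ n, Cfg (X n) ι lam r} {b : Cfg M ι lam r}
  {u : ∀ n, M → CL (c n).m.V b.m.V} {K : α → Type}
  [∀ n, NormedAddCommGroup (K n)] [∀ n, InnerProductSpace ℝ (K n)] [∀ n, CompleteSpace (K n)]
  {K' : Type} [NormedAddCommGroup K'] [InnerProductSpace ℝ K'] [CompleteSpace K']

section defs
variable (g u) (J : ∀ n, K n → (X n → (c n).m.A) → Prop) (J' : K' → (M → b.m.A) → Prop)

/-- contractions converge -/
abbrev LC (h : ∀ n, K n) (h' : K') (s : ∀ n, X n → HV (c n) (K n)) (s' : M → HV b K') : Prop :=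
  L1 g c b u (fun n x => ct (h n) (s n x)) fun x => ct h' (s' x)

/-- weak convergence -/
structure WK (s : ∀ n, X n → HV (c n) (K n)) (s' : M → HV b K') : Prop where
  pk : PK g c s
  sb : SBd I₀ s'
  fx : Fx b s'
  wk : ∀ h h' σ σ', (∀ n, J n (h n) (σ n)) → J' h' σ' →
    (∃ C, ∀ᶠ n in (g.l : Filter α), ‖h n‖ ≤ C) → Q1 g c b u σ σ' → LC g u h h' s s'

/-- consequences of weak convergence -/
def DW (s : ∀ n, X n → HV (c n) (K n)) (s' : M → HV b K') : Prop :=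
  ∀ h h', (∀ t t', WK g u J J' t t' → LC g u h h' t t') → LC g u h h' s s'

/-- strong convergence -/
def SK (s : ∀ n, X n → HV (c n) (K n)) (s' : M → HV b K') : Prop :=
  ∀ z ∉ g.S c, ∀ j, ∃ h : ∀ n, K n, (∀ᶠ n in (g.l : Filter α),
    h n = am2 (ContinuousLinearMap.id ℝ _) (cj (u n z)) (s n (g.ψ n z)) j) ∧
      ∀ t t', WK g u J J' t t' → LC g u h (s' z j) t t'

end defs

variable (k : g.Bk c) (l : g.LB c b u) {J : ∀ n, K n → (X n → (c n).m.A) → Prop}
  {J' : K' → (M → b.m.A) → Prop} {s t v e β β₁ : ∀ n, X n → HV (c n) (K n)}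
  {s' t' v' e' β' β₁' : M → HV b K'} {f f' φ : ∀ n, X n → ℝ} {f₀ f₀' φ₀ : M → ℝ}
  {ξ : ∀ n, X n → (c n).m.A} {ξ₀ : ∀ b : Cfg M ι lam r, M → b.m.A} {R : α → ℝ} {R' : ℝ}
  {η : ∀ n, X n → Fm ι (c n).m.A} {η' : M → Fm ι b.m.A}
  {w w₁ : ∀ n, List (La (X n))} {w' w₁' : Cfg M ι lam r → List (La M)}

theorem PK.ub (h : PK g c s) {a : ∀ n, K n} {C : ℝ} (ha : ∀ᶠ n in (g.l : Filter α), ‖a n‖ ≤ C) :
    g.UB fun n x => Cyc79.ct (a n) (s n x) :=
  Gs.UB.mul (s := fun n _ => a n) ⟨C, ha.mono fun _ h _ => h⟩ h.bd fun _ _ => norm_ct _ _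

theorem WK.dw (h : WK g u J J' s s') : DW g u J J' s s' := fun _ _ a => a _ _ h

include k l

theorem qs_sb {f' : Cfg M ι lam r → M → ℝ} (h : g.QS c f f') : SBd I₀ (f' b) :=
  ⟨(h.lim b u l).1, h.bd.imp fun _ hC x => (isClosed_le (h.lim b u l).1.continuous.norm
    continuous_const).closure_subset_iff.2 (fun _ hy => (h.lim b u l).2.mem_closed hy
      (isClosed_le continuous_norm continuous_const) (hC.mono fun _ hn => hn _))
    (dense_of_fin (I₀ := I₀) k.ok.h4 l.lim.fin x)⟩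

theorem qa_sb (h : g.QA c ξ ξ₀) : SBd I₀ (ξ₀ b) :=
  ⟨(h.lim b u l).sm, h.bd.imp fun _ => (h.lim b u l).le l.lim k.ok k.adm h.p⟩

theorem DW.nab (h : DW g u J J' s s') (sm : ∀ n, Sm I (s n)) (sm' : Sm I₀ s') (a : ι) :
    DW g u J J' (fun n => nab I (g.G n).F.e (WH c K n) a (s n))
      (nab I₀ g.G₀.F.e (aA K' (b.m.adW b.W)) a s') := fun x y H =>
  L1.congr ((h x y H).nab l.lim k.ok k.adm (fun n => sm_ct (sm n) _) a)
    (fun n _ => (ct_nab (sm n) _ _ _).symm) fun _ => (ct_nab sm' _ _ _).symm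

namespace WK

theorem vh {a : ∀ n, La (X n)} {a' : Cfg M ι lam r → La M} (ha : g.cLa c a a') (h : WK g u J J' s s')
    (e : ∀ n, vH (K n) (g.G n).F (WA c n) (c n).m.pg (a n) (s n) (v n))
    (e' : vH K' g.G₀.F (b.m.adW b.W) b.m.pg (a' b) s' v') : WK g u J J' v v' := by
  have pk := h.pk.vh k ha e
  have fx := fx_vH h.fx e'
  cases ha with
  | mul hf =>
    obtain rfl : v = _ := funext e
    obtain rfl : v' = _ := e'
    exact ⟨pk, (qs_sb k l hf).smul h.sb, fx, fun x y σ σ' a1 a2 a3 a4 =>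
      L1.congr (.smul (hf.lim b u l).1 (hf.lim b u l).2 (h.wk x y σ σ' a1 a2 a3 a4))
        (fun _ _ => map_smul ..) fun _ => map_smul ..⟩
  | G =>
    have sb : SBd I₀ v' := ⟨e'.1.sm, h.sb.2.imp e'.1.le⟩
    refine ⟨pk, sb, fx, fun x y σ σ' a1 a2 ⟨C, a3⟩ a4 => la_res k l (fun z => PK.ct k (pk.pf z) a3)
      (fun n => sm_ct (e n).1.sm _) (fun n z => ct_mem (pk.fx n z) _) (pk.ub a3) (fun n z => ?_)
      (h.wk x y σ σ' a1 a2 ⟨C, a3⟩ a4) ⟨(sbd_ct sb y).1, (sbd_ct sb y).2, fun z => ?_⟩⟩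
    · rw [ct_lap (fun a => (Wz78.con_adW (k.adm n).conn).sm a) (e n).1.sm, ← map_add, (e n).1.eq]
    · rw [ct_lap (fun a => (Wz78.con_adW l.lim.adm.conn).sm a) e'.1.sm, ← map_add, e'.1.eq]

theorem vw (hw : FL (g.cLa c) w w') (h : WK g u J J' s s')
    (e : ∀ n, VW (vH (K n) (g.G n).F (WA c n) (c n).m.pg) (s n) (w n) (v n))
    (e' : VW (vH K' g.G₀.F (b.m.adW b.W) b.m.pg) s' (w' b) v') : WK g u J J' v v' :=
  fl_vw (Q := WK g u J J') b h (fun _ _ _ _ _ _ a h e e' => h.vh k l a e e') hw e e'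

theorem ad (hl : g.QA c ξ ξ₀) (h : WK g u J J' s s') :
    WK g u J J' (fun n x => amp (K n) (adR _ ((c n).m.pg x (ξ n x))) (s n x))
      fun x => amp K' (adR _ (b.m.pg x (ξ₀ b x))) (s' x) := by
  have e := fun x => pg_of_mem (L1.mem k l (hl.lim b u l) hl.p x)
  refine ⟨h.pk.ad k hl, ?_, h.fx.ad _, fun x y σ σ' a1 a2 a3 a4 => L1.congr
    (L1.ad k l (L1.pg k l (hl.lim b u l)) (h.wk x y σ σ' a1 a2 a3 a4)
      fun n z => ct_mem (h.pk.fx n z) _) (fun _ _ => ct_amp ..) fun _ => ct_amp ..⟩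
  simp only [e]
  exact ((SBd.const (hr K' (adR _))).app (qa_sb k l hl)).app h.sb

theorem bf (hf : g.FC c f f₀) (hf' : g.FC c f' f₀') (pk : PK g c β)
    (h : ∀ n, BF (g.G n).F (WA c n) (c n).m.pg (J n) (f n) (f' n) (φ n) (R n) (β n))
    (h' : BF g.G₀.F (b.m.adW b.W) b.m.pg J' f₀ f₀' φ₀ R' β') : WK g u J J' β β' := by
  refine ⟨pk, ?_, h'.fx, fun x y σ σ' a1 a2 _ a4 => ?_⟩
  · obtain ⟨w, a1, a2, -, a4, -⟩ := h'.loc
    exact funext a4 ▸ (qs_sb k l hf.qs).smul ⟨a1, _, a2⟩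
  choose v b1 b2 b3 using fun n => (h n).wk _ _ (a1 n)
  obtain ⟨v', c1, -, c3⟩ := h'.wk _ _ a2
  have q : Q1 g c b u (fun n z => f' n z • (c n).m.pg z (σ n z)) fun z => f₀' z • b.m.pg z (σ' z) :=
    ⟨fun z => ((hf'.qs.pf z).smul (a4.pf z)).congr fun n y => by rw [pg_of_mem (a4.p n y)],
      fun _ _ => Submodule.smul_mem _ _ (pg_mem ..), hf'.bd.mul a4.bd fun n y => by
        rw [pg_of_mem (a4.p n y), norm_smul],
      .smul hf'.sm (hf'.cv.mono le_rfl Gs.sub_S) (a4.la.pg k l)⟩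
  exact L1.congr (.smul hf.sm (hf.cv.mono le_rfl Gs.sub_S)
    (q.res k l b1 (fun n z => b2 n z ▸ pg_mem ..) c1)) b3 c3

/-- **strong convergence** -/
theorem sk (vj : ∀ n, VJ (g.G n).F (c n).m.pg (J n)) (vj' : VJ g.G₀.F b.m.pg J')
    (h : WK g u J J' s s') (he : WK g u J J' e e') (st : ∀ n, St (J n) (R n) (e n) (s n))
    (hR : ∃ C, ∀ᶠ n in (g.l : Filter α), R n ≤ C) (st' : St J' R' e' s') : SK g u J J' s s' := by
  classical
  intro z hz j
  let ε : b.m.A := EuclideanSpace.single j 1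
  have n1 : ‖ε‖ = 1 := by simp [ε]
  let v : ∀ n, (c n).m.A := fun n => if ‖trn (cj (u n z)) ε‖ ≤ 1 then trn (cj (u n z)) ε else 0
  have v1 : ∀ n, ‖v n‖ ≤ 1 := fun n => by
    simp only [v]; split_ifs with h
    exacts [h, by simp]
  have v2 : ∀ᶠ n in (g.l : Filter α), v n = trn (cj (u n z)) ε :=
    (nr k l hz).curry.mono fun n hn => if_pos (n1 ▸ (trn (cj (u n z))).le_of_opNorm_le
      ((LinearIsometryEquiv.norm_map ContinuousLinearMap.adjoint _).trans_le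
        (hn.self_of_nhds.cj_le k.adm)) ε |>.trans_eq (one_mul _))
  choose a a1 a2 using fun n => st n (g.ψ n z) (v n) (v1 n)
  obtain ⟨a', -, a3⟩ := st' z ε n1.le
  rw [dot_single] at a3
  obtain ⟨C, hC⟩ := hR
  have ba : ∀ᶠ n in (g.l : Filter α), ‖a n‖ ≤ C := hC.mono fun n hn => (a1 n).trans hn
  have pf := fun x => PK.ct k (he.pk.pf x) ba
  have m := fun n x => ct_mem (he.pk.fx n x) (a n)
  obtain ⟨σ, hσ⟩ := k.core.A l.hyp b u l.lim _ _ pf
  have q : Q1 g c b u _ σ := ⟨pf, m, he.pk.ub ba, hσ⟩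
  obtain rfl : σ = fun y => ct a' (e' y) := eq_of_tst k l hσ.sm (sm_ct he.sb.1 _) (L1.mem k l hσ m)
    (fun y => ct_mem (he.fx y) _) fun w T hT hS w0 sw mw => by
      obtain ⟨t, t1, t2⟩ := exists_tst k l hT hS w0 sw mw
      choose x x1 x2 using fun n => vj n (t n) (t2 n).1 (t2 n).2.1 fun y => pg_of_mem (t1.p n y)
      obtain ⟨y, y1, y2⟩ := vj' w sw (.intro hT w0) fun y => pg_of_mem (mw y)
      have i1 := int_tst k l hT hS w0 t1 (fun n => (t2 n).2.2) t1 z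
      have i2 := int_tst k l hT hS w0 t1 (fun n => (t2 n).2.2) q z
      simp only [← x2 _ _ _ (x1 _)] at i1
      simp only [real_inner_self_eq_norm_sq (x _)] at i1
      simp only [← x2 _ _ _ (a2 _), inner_dot] at i2
      have i3 := ((h.wk x y t w x1 y1 ⟨_, (i1.sqrt.eventually (gt_mem_nhds (lt_add_one _))).mono
        fun n hn => (Real.sqrt_sq (norm_nonneg _)).ge.trans hn.le⟩ t1).cv.pt z hz).inner (𝕜 := ℝ)
          (tendsto_const_nhds (x := ε))
      rw [← y2 _ _ a3, ← dot_single, inner_dot]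
      exact tendsto_nhds_unique i2 (i3.congr' (v2.mono fun n hn => by
        beta_reduce; rw [hn, inner_trn']))
  obtain ⟨D, hD⟩ := h.pk.bd
  exact ⟨_, v2.mono fun n hn => by rw [am2_dot, hn], fun t t' ht => ht.wk _ _ _ _ a2 a3
    ⟨D, hD.mono fun n hn => (norm_dot _ _).trans ((mul_le_of_le_one_right (norm_nonneg _)
      (v1 n)).trans (hn _))⟩ q⟩

end WK

theorem SK.left (h : SK g u J J' s s') (fx : ∀ n, Fx (c n) (s n)) (ht : DW g u J J' t t') (z : M)
    (hz : z ∉ g.S c) : Tendsto (fun n => cj (u n z) (tp (hr (K n) (adR _)) (s n (g.ψ n z))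
      (t n (g.ψ n z)))) g.l (𝓝 (tp (hr K' (adR _)) (s' z) (t' z))) := by
  choose a a1 a2 using h z hz
  rw [tp_left]
  refine (tendsto_finsetSum _ fun j _ => ((tpL (adR _) (EuclideanSpace.single j 1)).continuous.tendsto
    _).comp ((ht _ _ (a2 j)).cv.pt z hz)).congr' (((eventually_all.2 a1).and
      (nr k l hz).curry).mono fun n hn => ?_)
  beta_reduce
  rw [me_tp hn.2.self_of_nhds.me (ct_mem (fx n _)), tp_left]
  exact Finset.sum_congr rfl fun j _ => by rw [ct_id, ← hn.1 j]; rfl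

theorem SK.right (h : SK g u J J' s s') (fx : ∀ n, Fx (c n) (t n)) (ht : DW g u J J' t t') (z : M)
    (hz : z ∉ g.S c) : Tendsto (fun n => cj (u n z) (tp (hr (K n) (adR _)) (t n (g.ψ n z))
      (s n (g.ψ n z)))) g.l (𝓝 (tp (hr K' (adR _)) (t' z) (s' z))) := by
  choose a a1 a2 using h z hz
  rw [tp_right]
  have q : ∀ j, Continuous fun w => tp (adR (Fin b.m.N)) w (EuclideanSpace.single j 1) := fun j =>
    (tpL (adR _)).continuous.clm_apply continuous_const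
  refine (tendsto_finsetSum _ fun j _ => ((q j).tendsto _).comp ((ht _ _ (a2 j)).cv.pt z hz)).congr'
      (((eventually_all.2 a1).and (nr k l hz).curry).mono fun n hn => ?_)
  beta_reduce
  rw [me_tp hn.2.self_of_nhds.me (ct_mem (fx n _)), tp_right]
  exact Finset.sum_congr rfl fun j _ => by rw [ct_id, ← hn.1 j]; rfl

theorem la_cur (h : WK g u J J' v v') (ht : WK g u J J' t t') (st : SK g u J J' t t')
    (sv : ∀ n, Sm I (v n)) (sm : ∀ n, Sm I (t n)) (a : ι) :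
    L1 g c b u (fun n x => cur (g.G n).F (WH c K n) (hr (K n) (adR _)) (v n) (t n) x a)
      fun x => cur g.G₀.F (aA K' (b.m.adW b.W)) (hr K' (adR _)) v' t' x a := by
  have C := l.lim.adm.conn
  have d := h.dw.nab k l sv h.sb.1 a
  have sd := sm_nab (Wz78.frm g.G₀.F).se (sm_WK (K := K') C) h.sb.1 a
  have a1 := la_of_pt k l (fun x => (h.pk.pf x).two (ht.pk.pf x) fun _ _ _ _ _ p q =>
    wt_tp (k.gx x) p q cn_P) (sm_tp h.sb.1 ht.sb.1) (st.right k l h.pk.fx h.dw)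
  have a2 := la_of_pt k l (σ := fun dw i => sP dw (i + (1 + 0))) (fun x => (h.pk.pf x).two (ht.pk.pf x)
    fun _ _ _ _ _ p q => wt_tp (k.gx x) (p.D a) q (cn_PP 1 0)) (sm_tp sd ht.sb.1)
    (st.right k l (fun n => (h.pk.fx n).nab (k.adm n).ok (k.adm n).conn (sv n) a) d)
  have a3 := la_of_pt k l (σ := fun dw i => sP dw (i + (0 + 1))) (fun x => (ht.pk.pf x).two (h.pk.pf x)
    fun _ _ _ _ _ p q => wt_tp (k.gx x) p (q.D a) (cn_PP 0 1)) (sm_tp ht.sb.1 sd)
    (st.left k l ht.pk.fx d)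
  refine L1.congr (.add (L1.sub (a1.nab l.lim k.ok k.adm (fun n => sm_tp (sv n) (sm n)) a) a2) a3)
    (fun n x => ?_) fun x => ?_
  · rw [nab_tp (k.adm n).conn (sv n) (sm n), add_sub_cancel_left]; rfl
  · rw [nab_tp C h.sb.1 ht.sb.1, add_sub_cancel_left]; rfl

section vg
variable (vj : ∀ n, VJ (g.G n).F (c n).m.pg (J n)) (vj' : VJ g.G₀.F b.m.pg J')
  (hR : ∃ C, ∀ᶠ n in (g.l : Filter α), R n ≤ C)
include vj vj' hR

theorem la_vg (hw : FL (g.cLa c) w w') (h : WK g u J J' s s') (he : WK g u J J' e e') :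
    ∀ {t t'} {η : ∀ n, X n → Fm ι (c n).m.A} {η' : M → Fm ι b.m.A}, WK g u J J' t t' →
    (∀ n, vG (g.G n).F (WA c n) (c n).m.pg (J n) (adR _) (R n) (e n) (s n) (w n) (t n) (η n)) →
    vG g.G₀.F (b.m.adW b.W) b.m.pg J' (adR _) R' e' s' (w' b) t' η' →
      ∀ a, L1 g c b u (fun n x => η n x a) fun x => η' x a := by
  induction hw with
  | nil =>
    intro t t' η η' _ e e' a
    obtain rfl : η = _ := funext e
    obtain rfl : η' = _ := e'
    exact (Gs.QA.zero k).lim b u l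
  | cons a hw ih =>
    intro t t' η η' ht e e' i
    cases a with
    | mul hf => exact ih (ht.vh k l (.mul hf) (fun _ => rfl) rfl) e e' i
    | G =>
      choose u₀ u₁ m η₀ a1 a2 a3 a4 a5 a6 using e
      obtain ⟨u₀', u₁', m', η₀', b1, b2, b3, b4, b5, rfl⟩ := e'
      obtain rfl : η = _ := funext a6
      have q := ht.vh k l .G a3 b3
      exact (ih q a5 b5 i).sub (la_cur k l ((h.vw k l hw a1 b1).vh k l .G a2 b2) q
        (q.sk k l vj vj' he a4 hR b4) (fun n => (a2 n).1.sm) (fun n => (a3 n).1.sm) i)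

theorem la_vgh (hf : g.FC c f f₀) (hf' : g.FC c f' f₀') (hw : FL (g.cLa c) w w')
    (hw₁ : FL (g.cLa c) w₁ w₁') (hb : WK g u J J' β β') (hb' : WK g u J J' β₁ β₁')
    (hs : WK g u J J' s s') (hl : g.QA c ξ ξ₀)
    (e : ∀ n, vgh (g.G n).F (WA c n) (c n).m.pg (J n) (adR _) (R n) (f n) (f' n) (β n) (β₁ n) (w n)
      (w₁ n) (fun x => adR _ ((c n).m.pg x (ξ n x))) (s n) (η n))
    (e' : vgh g.G₀.F (b.m.adW b.W) b.m.pg J' (adR _) R' f₀ f₀' β' β₁' (w' b) (w₁' b)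
      (fun x => adR _ (b.m.pg x (ξ₀ b x))) s' η') (a : ι) :
    L1 g c b u (fun n x => η n x a) fun x => η' x a := by
  choose η₁ η₂ v m a1 a2 a3 a4 a5 using e
  obtain ⟨η₁', η₂', v', m', b1, b2, b3, b4, rfl⟩ := e'
  obtain rfl : η = _ := funext a5
  have x1 := fl_append hw (fl_xw hf hf')
  exact (la_vg k l vj vj' hR x1 hb' hb (hs.ad k l hl) a1 b1 a).add (la_vg k l vj vj' hR (fl_xw hf' hf)
    hb hb' (((hb.vw k l hw₁ a2 b2).ad k l hl).vw k l (fl_reverse x1) a3 b3) a4 b4 a)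

end vg

variable {d : ∀ n, Cy (X n)} {d₀ : Cy M} (h : CC g c d φ R d₀)
  (V : ∀ n, VC (g.G n).F (c n) (d n) (φ n) (R n))
include h

theorem CC.wk (V' : VC g.G₀.F b d₀ φ₀ R') :
    WK g u (fun n => (V n).J) V'.J (fun n => (V n).b) V'.b ∧
    WK g u (fun n => (V n).J) V'.J (fun n => (V n).b') V'.b' ∧
    WK g u (fun n => (V n).J) V'.J (fun n => (V n).al) V'.al ∧
    WK g u (fun n => (V n).J) V'.J (fun n => (V n).be) V'.be :=
  have a := WK.bf k l h.f' h.f (h.pb' k V) (fun n => (V n).bf') V'.bf'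
  ⟨.bf k l h.f h.f' (h.pb k V) (fun n => (V n).bf) V'.bf, a,
    a.vw k l (fl_append h.w (fl_xw h.f h.f')) (fun n => (V n).wa) V'.wa,
    a.vw k l (fl_append h.w' (fl_xw h.f h.f')) (fun n => (V n).wb) V'.wb⟩

variable (h₀ : d₀.OK g.G₀.F)
include h₀

omit l in
/-- **CYC-LIM**, the seed -/
theorem qs : g.QA c (fun n => (V n).s) fun b => (d₀.sed g.G₀.F).s b := by
  have pf : ∀ x, g.Pf c x (WA c) fun n y => tp (hr (V n).K (adR _)) ((V n).al y) ((V n).be y) :=
    fun x => ((h.al k V).pf x).two ((h.be k V).pf x) fun _ _ _ _ _ p q => wt_tp (k.gx x) p q cn_P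
  have bd : ∀ n x, ‖(V n).s x‖ ≤ ‖(V n).al x + (V n).al x‖ * ‖(V n).be x‖ := fun n x => by
    rw [← two_smul ℝ, norm_smul, Real.norm_two]
    exact (Wz78.norm_pg _ _).trans ((tpL (hr (V n).K (adR _))).le_of_opNorm₂_le_of_le
      (norm_tpL norm_hr) le_rfl le_rfl)
  refine ⟨fun x => (pf x).one fun _ _ _ _ _ => (k.gx x).wt_pg, fun _ _ => pg_mem ..,
    ((h.al k V).bd.add (h.al k V).bd).mul (h.be k V).bd bd, fun b u l => ?_⟩
  obtain ⟨φ₀, S, n, -, un⟩ := exists_un k.tame.choose_spec h₀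
  obtain ⟨V', e, -⟩ := lit k.ok.B₀ k.tame l.lim.adm.ok l.lim.adm.conn un
  obtain ⟨a1, -, a3, a4⟩ := h.wk k l V V'
  have q := L1.pg k l (la_of_pt k l pf (sm_tp a3.sb.1 a4.sb.1) ((a3.sk k l (fun n => (V n).vj) V'.vj
    a1 (fun n => (V n).sa) h.R V'.sa).left k l a3.pk.fx a4.dw))
  beta_reduce
  rw [← e]
  exact q

omit l in
/-- **CYC-LIM**, the gradient -/
theorem qa (hl : g.QA c ξ ξ₀) (hη : ∀ n, (V n).A (ξ n) (η n)) (l : g.LB c b u) (a : ι) :
    g.LA c b (g.S c) u (fun n x => η n x a) fun x => (d₀.sed g.G₀.F).sA b (ξ₀ b) x a := by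
  obtain ⟨φ₀, S, n, -, un⟩ := exists_un k.tame.choose_spec h₀
  obtain ⟨V', -, -, e⟩ := lit k.ok.B₀ k.tame l.lim.adm.ok l.lim.adm.conn un
  obtain ⟨a1, a2, a3, a4⟩ := h.wk k l V V'
  obtain ⟨R₀, η₁', η₂', -, b2, b3, b4⟩ := e _ (qa_sb k l hl)
  choose R₁ η₁ η₂ c1 c2 c3 c4 using hη
  obtain rfl : η = _ := funext c4
  obtain ⟨C, hC⟩ := hl.bd
  obtain ⟨D, hD⟩ := h.R
  have hR : ∃ C, ∀ᶠ n in (g.l : Filter α), R₁ n ≤ C := ⟨D * max C 0, (hC.and hD).mono fun n hn =>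
    (c1 n _ (le_max_right _ _) fun x => le_max_of_le_left (hn.1 x)).trans
      (mul_le_mul_of_nonneg_right hn.2 (le_max_right _ _))⟩
  rw [b4]
  exact (la_vgh k l (fun n => (V n).vj) V'.vj hR h.f h.f' h.w' h.w a1 a2 a3 hl c2 b2 a).sub
    (la_vgh k l (fun n => (V n).vj) V'.vj hR h.f h.f' h.w h.w' a1 a2 a4 hl c3 b3 a)

end Crest.Agent.X212.Cyl12
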